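import Vale.Agent.P144D.DefsB
import Vale.Agent.P144Z.G.Stein

/-!
Lattice geometry of the regions, first part.
-/

namespace Vale.Agent.P144Z

open Finset

namespace GeoA

theorem len_nonneg (v : ℤ × ℤ) : 0 ≤ len v := Real.sqrt_nonneg _

theorem len_le (v : ℤ × ℤ) : len v ≤ |(v.1 : ℝ)| + |(v.2 : ℝ)| := by
  refine Real.sqrt_le_iff.2 ⟨by positivity, ?_⟩
  nlinarith [sq_abs (v.1 : ℝ), sq_abs (v.2 : ℝ),
    mul_nonneg (abs_nonneg (v.1 : ℝ)) (abs_nonneg (v.2 : ℝ))]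

theorem epi_mono {S : Set (ℤ × ℤ)} {ν : ℂ} {κ κ' : ℝ} (h : Epi S ν κ) (hκ : κ ≤ κ') :
    Epi S ν κ' := fun u hu v hv =>
  h u hu v ((mul_le_mul_of_nonneg_right hκ (len_nonneg v)).trans hv)

/-- The complement is stable under the opposite cone. -/
theorem epi_out {S : Set (ℤ × ℤ)} {ν : ℂ} {κ : ℝ} (h : Epi S ν κ) {v x : ℤ × ℤ} (hv : v ∉ S)
    (hx : κ * len (v - x) ≤ ht ν (v - x)) : x ∉ S := fun h' =>
  hv (by simpa using h x h' _ hx)

theorem sq_add {ν : ℂ} (h : ‖ν‖ = 1) : ν.re ^ 2 + ν.im ^ 2 = 1 := by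
  have := Complex.sq_norm ν
  rw [h, Complex.normSq_apply] at this
  linarith

theorem abs_re {ν : ℂ} (h : ‖ν‖ = 1) : |ν.re| ≤ 1 := h ▸ Complex.abs_re_le_norm ν

theorem abs_im {ν : ℂ} (h : ‖ν‖ = 1) : |ν.im| ≤ 1 := h ▸ Complex.abs_im_le_norm ν

theorem abs_mul_le {a b D : ℝ} (ha : |a| ≤ D) (hb : |b| ≤ 1) : |a * b| ≤ D := by
  rw [abs_mul]
  nlinarith [abs_nonneg a, abs_nonneg b]

/-- The best unit vector. -/
theorem exists_best {ν : ℂ} (h : ‖ν‖ = 1) : ∃ e : ℤ × ℤ,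
    (e = (1, 0) ∨ e = (0, 1) ∨ e = (-1, 0) ∨ e = (0, -1)) ∧ 1 / 2 ≤ ht ν e := by
  have h1 := sq_add h
  by_contra h2
  push Not at h2
  have a := h2 (1, 0) (by simp)
  have b := h2 (0, 1) (by simp)
  have c := h2 (-1, 0) (by simp)
  have d := h2 (0, -1) (by simp)
  simp only [ht] at a b c d
  push_cast at a b c d
  nlinarith

/-- The bisector. -/
theorem exists_mu {ν₁ ν₂ : ℂ} {α : ℝ} (h1 : ‖ν₁‖ = 1) (h2 : ‖ν₂‖ = 1) (hα : 0 < α)
    (h : α ≤ ‖ν₁ + ν₂‖) : ∃ a b : ℝ, |a| ≤ 1 ∧ |b| ≤ 1 ∧ α / 2 ≤ a * ν₁.re + b * ν₁.im ∧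
      α / 2 ≤ a * ν₂.re + b * ν₂.im := by
  have hN : 0 < ‖ν₁ + ν₂‖ := hα.trans_le h
  have e := Complex.sq_norm (ν₁ + ν₂)
  rw [Complex.normSq_apply, Complex.add_re, Complex.add_im] at e
  have e1 := sq_add h1
  have e2 := sq_add h2
  refine ⟨(ν₁ + ν₂).re / ‖ν₁ + ν₂‖, (ν₁ + ν₂).im / ‖ν₁ + ν₂‖, ?_, ?_, ?_, ?_⟩
  · rw [abs_div, abs_of_pos hN, div_le_one hN]
    exact Complex.abs_re_le_norm _
  · rw [abs_div, abs_of_pos hN, div_le_one hN]
    exact Complex.abs_im_le_norm _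
  · rw [div_mul_eq_mul_div, div_mul_eq_mul_div, ← add_div, le_div_iff₀ hN, Complex.add_re,
      Complex.add_im]
    nlinarith
  · rw [div_mul_eq_mul_div, div_mul_eq_mul_div, ← add_div, le_div_iff₀ hN, Complex.add_re,
      Complex.add_im]
    nlinarith

/-- Connection through the points of `G`. -/
def Rch (G : ℤ × ℤ → Prop) : ℤ × ℤ → ℤ × ℤ → Prop :=
  Relation.ReflTransGen fun u w => G u ∧ G w ∧
    (w = u + (1, 0) ∨ w = u + (0, 1) ∨ w = u + (-1, 0) ∨ w = u + (0, -1))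

theorem Rch.symm {G : ℤ × ℤ → Prop} {a b : ℤ × ℤ} (h : Rch G a b) : Rch G b a := by
  induction h with
  | refl => exact Relation.ReflTransGen.refl
  | tail _ h2 ih =>
    refine Relation.ReflTransGen.head ⟨h2.2.1, h2.1, ?_⟩ ih
    have h3 := h2.2.2
    simp only [Prod.ext_iff, Prod.fst_add, Prod.snd_add] at h3 ⊢
    omega

theorem Rch.trans {G : ℤ × ℤ → Prop} {a b c : ℤ × ℤ} (h : Rch G a b) (h' : Rch G b c) :
    Rch G a c := Relation.ReflTransGen.trans h h'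

/-- Squares are connected. -/
theorem rch_box {G : ℤ × ℤ → Prop} {a : ℤ × ℤ} {D : ℕ} (h : ∀ x, zd x a ≤ D → G x) {b : ℤ × ℤ}
    (hb : zd b a ≤ D) : Rch G b a := by
  obtain ⟨n, hn⟩ : ∃ n, (b.1 - a.1).natAbs + (b.2 - a.2).natAbs ≤ n := ⟨_, le_rfl⟩
  induction n generalizing b with
  | zero =>
    have : b = a := Prod.ext (by omega) (by omega)
    exact this ▸ Relation.ReflTransGen.refl
  | succ n ih =>
    have step : ∀ e : ℤ × ℤ, (e = (1, 0) ∨ e = (0, 1) ∨ e = (-1, 0) ∨ e = (0, -1)) →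
        zd (b + e) a ≤ D → ((b + e).1 - a.1).natAbs + ((b + e).2 - a.2).natAbs ≤ n →
        Rch G b a := fun e he h1 h2 =>
      Relation.ReflTransGen.head ⟨h b hb, h _ h1, by rcases he with rfl | rfl | rfl | rfl <;> simp⟩
        (ih h1 h2)
    unfold zd at hb
    rcases lt_trichotomy b.1 a.1 with h1 | h1 | h1
    · refine step (1, 0) (by simp) ?_ ?_ <;> simp only [zd, Prod.fst_add, Prod.snd_add] <;> omega
    · rcases lt_trichotomy b.2 a.2 with h2 | h2 | h2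
      · refine step (0, 1) (by simp) ?_ ?_ <;> simp only [zd, Prod.fst_add, Prod.snd_add] <;> omega
      · have : b = a := Prod.ext h1 h2
        exact this ▸ Relation.ReflTransGen.refl
      · refine step (0, -1) (by simp) ?_ ?_ <;> simp only [zd, Prod.fst_add, Prod.snd_add] <;> omega
    · refine step (-1, 0) (by simp) ?_ ?_ <;> simp only [zd, Prod.fst_add, Prod.snd_add] <;> omega

/-- The lattice points along the ray of direction `-(a, b)`, shifted by `-12 e`. -/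
noncomputable def ray (v e : ℤ × ℤ) (a b : ℝ) (t : ℕ) : ℤ × ℤ :=
  (v.1 - 12 * e.1 - ⌊t * a⌋, v.2 - 12 * e.2 - ⌊t * b⌋)

theorem unit_le {e : ℤ × ℤ} (he : e = (1, 0) ∨ e = (0, 1) ∨ e = (-1, 0) ∨ e = (0, -1)) :
    e.1.natAbs + e.2.natAbs ≤ 1 := by
  rcases he with rfl | rfl | rfl | rfl <;> simp

theorem floor_step {a : ℝ} (ha : |a| ≤ 1) (t : ℕ) :
    (⌊((t + 1 : ℕ) : ℝ) * a⌋ - ⌊(t : ℝ) * a⌋).natAbs ≤ 1 := by
  have h1 := abs_le.1 ha
  have h2 : ⌊((t + 1 : ℕ) : ℝ) * a⌋ ≤ ⌊(t : ℝ) * a⌋ + 1 := by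
    rw [← Int.floor_add_one]
    refine Int.floor_le_floor ?_
    push_cast
    linarith
  have h3 : ⌊(t : ℝ) * a⌋ ≤ ⌊((t + 1 : ℕ) : ℝ) * a⌋ + 1 := by
    rw [← Int.floor_add_one]
    refine Int.floor_le_floor ?_
    push_cast
    linarith
  omega

theorem floor_le {a : ℝ} (ha : |a| ≤ 1) (t : ℕ) : (⌊(t : ℝ) * a⌋).natAbs ≤ t := by
  induction t with
  | zero => simp
  | succ t ih =>
    have := floor_step ha t
    omega

theorem zd_tri (x y z : ℤ × ℤ) : zd x z ≤ zd x y + zd y z := by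
  unfold zd
  omega

theorem zd_comm (x y : ℤ × ℤ) : zd x y = zd y x := by
  unfold zd
  omega

theorem zd_ray {a b : ℝ} (ha : |a| ≤ 1) (hb : |b| ≤ 1) (v : ℤ × ℤ) {e : ℤ × ℤ}
    (he : e.1.natAbs + e.2.natAbs ≤ 1) (t : ℕ) : zd (ray v e a b t) v ≤ t + 12 := by
  have := floor_le ha t
  have := floor_le hb t
  simp only [zd, ray]
  omega

theorem zd_ray_ray (a b : ℝ) (v v' : ℤ × ℤ) {e e' : ℤ × ℤ} (he : e.1.natAbs + e.2.natAbs ≤ 1)
    (he' : e'.1.natAbs + e'.2.natAbs ≤ 1) (t : ℕ) :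
    zd (ray v' e' a b t) (ray v e a b t) ≤ zd v' v + 24 := by
  simp only [zd, ray]
  omega

theorem near_real {x y : ℤ} {D : ℕ} {c : ℝ} (h : (x - (y - ⌊c⌋)).natAbs ≤ D) :
    |(y : ℝ) - x - c| ≤ D + 1 := by
  have h1 : -(D : ℤ) ≤ x - (y - ⌊c⌋) ∧ x - (y - ⌊c⌋) ≤ D := by omega
  have h2 : -(D : ℝ) ≤ x - (y - ⌊c⌋) := by exact_mod_cast h1.1
  have h3 : (x : ℝ) - (y - ⌊c⌋) ≤ D := by exact_mod_cast h1.2
  rw [abs_le]
  constructor <;> linarith [Int.floor_le c, Int.lt_floor_add_one c]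

/-- Points deep in the opposite cone. -/
theorem deep {S : Set (ℤ × ℤ)} {ν : ℂ} {κ a b : ℝ} (h : Epi S ν κ) (hν : ‖ν‖ = 1) (h0 : 0 ≤ κ)
    (h1 : κ ≤ 1 / 8) (ha : |a| ≤ 1) (hb : |b| ≤ 1) (hab : 8 * κ ≤ a * ν.re + b * ν.im)
    {v e x : ℤ × ℤ} (hv : v ∉ S) (he : e = (1, 0) ∨ e = (0, 1) ∨ e = (-1, 0) ∨ e = (0, -1))
    (he' : 1 / 2 ≤ ht ν e) {t D : ℕ} (hx : zd x (ray v e a b t) ≤ D)
    (hD : 9 * ((D : ℝ) - 1) ≤ 24 * κ * t) : x ∉ S := by
  refine epi_out h hv ((mul_le_mul_of_nonneg_left (len_le _) h0).trans ?_)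
  have e1 := near_real ((le_max_left _ _).trans hx)
  have e2 := near_real ((le_max_right _ _).trans hx)
  have e3 : |(e.1 : ℝ)| + |(e.2 : ℝ)| ≤ 1 := by rcases he with rfl | rfl | rfl | rfl <;> simp
  simp only [ht, Prod.fst_sub, Prod.snd_sub] at he' ⊢
  push_cast at e1 e2 ⊢
  have ht0 : (0 : ℝ) ≤ t := Nat.cast_nonneg t
  set p := (v.1 : ℝ) - 12 * e.1 - x.1 - t * a with hp
  set q := (v.2 : ℝ) - 12 * e.2 - x.2 - t * b with hq
  have f1 : (v.1 : ℝ) - x.1 = 12 * e.1 + t * a + p := by rw [hp]; ring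
  have f2 : (v.2 : ℝ) - x.2 = 12 * e.2 + t * b + q := by rw [hq]; ring
  have g : ∀ u c w : ℝ, |c| ≤ 1 → |w| ≤ D + 1 → |12 * u + t * c + w| ≤ 12 * |u| + t + (D + 1) := by
    intro u c w hc hw
    refine (abs_add_three _ _ _).trans (add_le_add (add_le_add ?_ ?_) hw)
    · rw [abs_mul]; norm_num
    · exact abs_mul_le (abs_of_nonneg ht0).le hc
  rw [f1, f2]
  have g1 := g e.1 a p ha e1
  have g2 := g e.2 b q hb e2
  have g3 := (abs_le.1 (abs_mul_le e1 (abs_re hν))).1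
  have g4 := (abs_le.1 (abs_mul_le e2 (abs_im hν))).1
  have g5 := mul_le_mul_of_nonneg_left hab ht0
  have g6 : κ * (|12 * e.1 + t * a + p| + |12 * e.2 + t * b + q|) ≤
      κ * (12 + 2 * t + 2 * (D + 1)) := mul_le_mul_of_nonneg_left (by linarith) h0
  have g7 : κ * (12 + 2 * (D + 1)) ≤ 1 / 8 * (12 + 2 * (D + 1)) :=
    mul_le_mul_of_nonneg_right h1 (by positivity)
  nlinarith

/-- The path from an outer point along the ray. -/
theorem rch_ray {S : Set (ℤ × ℤ)} {ν : ℂ} {κ a b : ℝ} (h : Epi S ν κ) (hν : ‖ν‖ = 1) (h0 : 0 ≤ κ)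
    (h1 : κ ≤ 1 / 8) (ha : |a| ≤ 1) (hb : |b| ≤ 1) (hab : 8 * κ ≤ a * ν.re + b * ν.im)
    {v e : ℤ × ℤ} (hv : v ∉ S) (he : e = (1, 0) ∨ e = (0, 1) ∨ e = (-1, 0) ∨ e = (0, -1))
    (he' : 1 / 2 ≤ ht ν e) {G : ℤ × ℤ → Prop} {T : ℕ}
    (hG : ∀ x, x ∉ S → zd x v ≤ T + 13 → G x) : Rch G v (ray v e a b T) := by
  have line : ∀ k : ℕ, k ≤ 12 → G (v - k • e) := by
    intro k hk
    refine hG _ (epi_out h hv ((mul_le_mul_of_nonneg_left (len_le _) h0).trans ?_)) ?_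
    · have hk0 : (0 : ℝ) ≤ k := Nat.cast_nonneg k
      have := mul_le_mul_of_nonneg_left he' hk0
      have := mul_le_mul_of_nonneg_left h1 hk0
      rw [sub_sub_cancel]
      rcases he with rfl | rfl | rfl | rfl <;> simp [ht] at * <;> linarith
    · rcases he with rfl | rfl | rfl | rfl <;> simp [zd] <;> omega
  have s1 : ∀ k : ℕ, k ≤ 12 → Rch G v (v - k • e) := by
    intro k hk
    induction k with
    | zero =>
      rw [zero_smul, sub_zero]
      exact Relation.ReflTransGen.refl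
    | succ k ih =>
      refine Relation.ReflTransGen.tail (ih (by omega)) ⟨line k (by omega), line _ hk, ?_⟩
      rw [succ_nsmul, ← sub_sub, sub_eq_add_neg]
      rcases he with rfl | rfl | rfl | rfl <;> simp
  have s2 : ∀ t : ℕ, t ≤ T → Rch G v (ray v e a b t) := by
    intro t ht
    induction t with
    | zero =>
      have : ray v e a b 0 = v - 12 • e := by ext <;> simp [ray]
      exact this ▸ s1 12 le_rfl
    | succ t ih =>
      refine (ih (by omega)).trans (rch_box (D := 1) (fun x hx => hG x ?_ ?_) ?_).symm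
      · refine deep h hν h0 h1 ha hb hab hv he he' hx ?_
        have : 0 ≤ 24 * κ * t := by positivity
        simpa using this
      · have := zd_ray ha hb v (unit_le he) t
        have := zd_tri x (ray v e a b t) v
        omega
      · have := floor_step ha t
        have := floor_step hb t
        simp only [zd, ray]
        omega
  exact s2 T le_rfl

variable {M : ℕ} [NeZero M]

omit [NeZero M] in
theorem zd_lft (f z : Tor M) : zd (lft (f - z)) 0 = tdist f z := by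
  simp [zd, tdist]

theorem tdist_le_zd (z : Tor M) (v : ℤ × ℤ) : tdist (z + prj M v) z ≤ zd v 0 := by
  simpa [zd] using G.tdist_add_prj_le z v

theorem walk {I : Finset (Tor M)} {z : Tor M} (n : ℕ) : ∀ f, tdist f z ≤ n → ¬ (f ∈ I ↔ z ∈ I) →
    ∃ x y, tdist x z ≤ n ∧ x ∉ I ∧ y ∈ I ∧ tdist y x ≤ 1 := by
  induction n with
  | zero =>
    intro f h1 h2
    exact (h2 (tdist_eq_zero (Nat.le_zero.1 h1) ▸ Iff.rfl)).elim
  | succ n ih =>
    intro f h1 h2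
    obtain ⟨x, h3, h4⟩ := G.exists_closer h1
    by_cases h : x ∈ I ↔ z ∈ I
    · by_cases hf : f ∈ I
      · exact ⟨x, f, by omega, by tauto, hf, h3⟩
      · exact ⟨f, x, h1, hf, by tauto, tdist_comm f x ▸ h3⟩
    · obtain ⟨x', y, h5, h6⟩ := ih x h4 h
      exact ⟨x', y, by omega, h6⟩

theorem tdist_sub_uv (x : Tor M) (i : Fin 2) : tdist (x - uv M i) x ≤ 1 := by
  have := tdist_uv (x - uv M i) i
  rwa [sub_add_cancel, tdist_comm] at this

theorem tT_ne : tT ≠ 0 ∧ tT ≠ 1 := by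
  have : 0 < √2 := by positivity
  unfold tT
  constructor <;> linarith

omit [NeZero M] in
theorem flux_sign {B : Gauge M} (hB : IsSign B) (f : Tor M) : flux B f = 1 ∨ flux B f = -1 := by
  unfold flux
  rcases hB (f, 0) with a | a <;> rcases hB (f + uv M 0, 1) with b | b <;>
    rcases hB (f + uv M 1, 0) with c | c <;> rcases hB (f, 1) with d | d <;> simp [a, b, c, d]

end GeoA

open GeoA

variable {M : ℕ} [NeZero M] {I : Finset (Tor M)} {α κ : ℝ} {r : ℕ} {z : Tor M}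

theorem ShapeAt.mono (h : ShapeAt I α κ r z) {κ' : ℝ} {r' : ℕ} (hκ : κ ≤ κ') (hr : r' ≤ r) :
    ShapeAt I α κ' r' z := by
  obtain ⟨S₁, S₂, ν₁, ν₂, h1, h2, h3, h4, h5, h6⟩ := h
  exact ⟨S₁, S₂, ν₁, ν₂, h1, h2, h3, epi_mono h4 hκ, epi_mono h5 hκ, fun v hv => h6 v (hv.trans hr)⟩

theorem Shape.mono (h : Shape I α κ r) {κ' : ℝ} {r' : ℕ} (hκ : κ ≤ κ') (hr : r' ≤ r) :
    Shape I α κ' r' := fun z => (h z).mono hκ hr

/-- An outer face is outside one of the two sets. -/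
theorem ShapeAt.exists_out (h : ShapeAt I α κ r z) {f : Tor M} (hf : f ∉ I) (hd : tdist f z ≤ r) :
    ∃ (S : Set (ℤ × ℤ)) (ν : ℂ), ‖ν‖ = 1 ∧ Epi S ν κ ∧ lft (f - z) ∉ S ∧
      ∀ v, zd v 0 ≤ r → v ∉ S → z + prj M v ∉ I := by
  obtain ⟨S₁, S₂, ν₁, ν₂, h1, h2, -, h4, h5, h6⟩ := h
  have h7 := h6 (lft (f - z)) ((zd_lft f z).trans_le hd)
  rw [G.add_prj_lft] at h7
  by_cases h8 : lft (f - z) ∈ S₁
  · exact ⟨S₂, ν₂, h2, h5, fun h => hf (h7.2 ⟨h8, h⟩), fun v hv h h' => h ((h6 v hv).1 h').2⟩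
  · exact ⟨S₁, ν₁, h1, h4, h8, fun v hv h h' => h ((h6 v hv).1 h').1⟩

/-- The outer faces are locally connected. -/
theorem conn_of_shape : ∃ C : ℕ, 1 ≤ C ∧ ∀ (M : ℕ) [NeZero M] (I : Finset (Tor M)) (α κ : ℝ)
    (r : ℕ) (z : Tor M), ShapeAt I α κ r z → 0 < α → 16 * κ ≤ α → 2 * r + 1 ≤ M → ∀ s ρ : ℕ,
    (C : ℝ) * (s + 1) ≤ α * ρ → ρ ≤ r → ConnB I z s ρ := by
  refine ⟨300, by norm_num, fun M _ I α κ r z h hα hκ _ s ρ hC hρ f f' hf hf' hI hI' => ?_⟩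
  obtain ⟨S₁, S₂, ν₁, ν₂, h1, h2, h3, h4, h5, h6⟩ :=
    h.mono (κ' := α / 16) (by linarith) hρ
  have hα2 : α ≤ 2 := by linarith [norm_add_le ν₁ ν₂]
  obtain ⟨a, b, ha, hb, m1, m2⟩ := exists_mu h1 h2 hα h3
  have hs0 : (0 : ℝ) ≤ s := Nat.cast_nonneg s
  set T := ⌈6 * (2 * (s : ℝ) + 24) / α⌉₊ with hT
  have hT1 : 6 * (2 * (s : ℝ) + 24) ≤ T * α := (div_le_iff₀ hα).1 (Nat.le_ceil _)
  have hT2 : T + 3 * s + 40 ≤ ρ := by
    have h7 : (T : ℝ) < 6 * (2 * (s : ℝ) + 24) / α + 1 := Nat.ceil_lt_add_one (by positivity)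
    have h8 : ((T : ℝ) - 1) * α < 6 * (2 * (s : ℝ) + 24) := (lt_div_iff₀ hα).1 (by linarith)
    have h9 : α * (T + 3 * s + 40) ≤ α * ρ := by
      push_cast at hC
      nlinarith
    exact_mod_cast le_of_mul_le_mul_left h9 hα
  clear_value T
  set P : ℤ × ℤ → Prop := fun x => zd x 0 ≤ ρ ∧ z + prj M x ∉ I with hP
  have key : ∀ g, tdist g z ≤ s → g ∉ I → ∃ e : ℤ × ℤ,
      (e = (1, 0) ∨ e = (0, 1) ∨ e = (-1, 0) ∨ e = (0, -1)) ∧
      Rch P (lft (g - z)) (ray (lft (g - z)) e a b T) ∧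
      ∀ x, zd x (ray (lft (g - z)) e a b T) ≤ 2 * s + 24 → P x := by
    intro g hg hgI
    obtain ⟨S, ν, n1, n2, n3, n4, n5⟩ : ∃ (S : Set (ℤ × ℤ)) (ν : ℂ), ‖ν‖ = 1 ∧ Epi S ν (α / 16) ∧
        α / 2 ≤ a * ν.re + b * ν.im ∧ lft (g - z) ∉ S ∧
        ∀ v, zd v 0 ≤ ρ → v ∉ S → z + prj M v ∉ I := by
      have h7 := h6 (lft (g - z)) ((zd_lft g z).trans_le (by omega))
      rw [G.add_prj_lft] at h7
      by_cases h8 : lft (g - z) ∈ S₁
      · exact ⟨S₂, ν₂, h2, h5, m2, fun h => hgI (h7.2 ⟨h8, h⟩),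
          fun v hv h h' => h ((h6 v hv).1 h').2⟩
      · exact ⟨S₁, ν₁, h1, h4, m1, h8, fun v hv h h' => h ((h6 v hv).1 h').1⟩
    obtain ⟨e, he, he'⟩ := exists_best n1
    rw [← zd_lft] at hg
    refine ⟨e, he, rch_ray n2 n1 (by linarith) (by linarith) ha hb (by linarith) n4 he he'
      fun x h7 h8 => ?_, fun x hx => ?_⟩
    · have h9 : zd x 0 ≤ ρ := by
        have := zd_tri x (lft (g - z)) 0
        omega
      exact ⟨h9, n5 x h9 h7⟩
    · have h9 : zd x 0 ≤ ρ := by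
        have := zd_ray ha hb (lft (g - z)) (unit_le he) T
        have := zd_tri x (ray (lft (g - z)) e a b T) (lft (g - z))
        have := zd_tri x (lft (g - z)) 0
        omega
      refine ⟨h9, n5 x h9 (deep n2 n1 (by linarith) (by linarith) ha hb (by linarith) n4 he he'
        hx ?_)⟩
      push_cast
      linarith
  obtain ⟨e, he, p1, p2⟩ := key f hf hI
  obtain ⟨e', he', p3, -⟩ := key f' hf' hI'
  have p4 : Rch P (lft (f - z)) (lft (f' - z)) := by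
    refine p1.trans ((p3.trans (rch_box p2 ?_)).symm)
    rw [← zd_lft] at hf hf'
    have := zd_ray_ray a b (lft (f - z)) (lft (f' - z)) (unit_le he) (unit_le he') T
    have := zd_tri (lft (f' - z)) 0 (lft (f - z))
    rw [zd_comm 0] at this
    omega
  rw [← G.add_prj_lft f z, ← G.add_prj_lft f' z]
  refine Relation.ReflTransGen.lift (fun x => z + prj M x) ?_ _ _ p4
  rintro u w ⟨q1, q2, q3⟩
  refine ⟨(tdist_le_zd z u).trans q1.1, (tdist_le_zd z w).trans q2.1, q1.2, q2.2, ?_⟩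
  beta_reduce
  rcases q3 with rfl | rfl | rfl | rfl
  · exact ⟨0, Or.inl (by rw [G.prj_add, G.uv_zero, add_assoc])⟩
  · exact ⟨1, Or.inl (by rw [G.prj_add, G.uv_one, add_assoc])⟩
  · exact ⟨0, Or.inr (by simp [G.prj_add, uv, prj, add_assoc])⟩
  · exact ⟨1, Or.inr (by simp [G.prj_add, uv, prj, add_assoc])⟩

/-- An outer face gives an outer half-plane. -/
theorem outH_of_shape (h : ShapeAt I α κ r z) (hκ : 0 ≤ κ) (hM : 2 * r + 1 ≤ M) {f : Tor M}
    (hf : f ∉ I) (hd : tdist f z ≤ 1) (hr : 1 ≤ r) :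
    ∃ ν : ℂ, ‖ν‖ = 1 ∧ ∀ ρ ≤ r, OutH I z ν ρ (2 * κ * (ρ + 1) + 2) := by
  obtain ⟨S, ν, h1, h2, h3, h4⟩ := h.exists_out hf (hd.trans hr)
  refine ⟨ν, h1, fun ρ hρ v hv hw => h4 v (hv.trans hρ) (epi_out h2 h3 ?_)⟩
  rw [← zd_lft] at hd
  generalize lft (f - z) = u at hd
  simp only [zd, Prod.fst_zero, Prod.snd_zero, sub_zero, max_le_iff] at hd hv
  have c : ∀ (x : ℤ) (n : ℕ), x.natAbs ≤ n → |(x : ℝ)| ≤ n := by
    intro x n hx
    have : |x| ≤ n := abs_le.2 (by omega)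
    exact_mod_cast this
  have a1 := c _ _ hd.1
  have a2 := c _ _ hd.2
  have a3 := c _ _ hv.1
  have a4 := c _ _ hv.2
  have a5 := (abs_le.1 (abs_mul_le a1 (abs_re h1))).1
  have a6 := (abs_le.1 (abs_mul_le a2 (abs_im h1))).1
  have a7 : len (u - v) ≤ 2 * (ρ + 1) := by
    refine (len_le _).trans ?_
    simp only [Prod.fst_sub, Prod.snd_sub]
    push_cast at a1 a2 ⊢
    linarith [abs_sub (u.1 : ℝ) v.1, abs_sub (u.2 : ℝ) v.2]
  have a8 := mul_le_mul_of_nonneg_left a7 hκ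
  simp only [ht, Prod.fst_sub, Prod.snd_sub] at hw ⊢
  push_cast at a5 a6 ⊢
  linarith

/-- A point of the boundary between an inner and an outer face. -/
theorem exists_nearB {ρ : ℕ} (hM : 2 * ρ + 1 ≤ M) {f f' : Tor M} (hf : f ∈ I) (hf' : f' ∉ I)
    (h1 : tdist f z ≤ ρ) (h2 : tdist f' z ≤ ρ) :
    ∃ x, tdist x z ≤ ρ ∧ x ∉ I ∧ NearB I 1 x := by
  obtain ⟨x, y, h3, h4, h5, h6⟩ : ∃ x y, tdist x z ≤ ρ ∧ x ∉ I ∧ y ∈ I ∧ tdist y x ≤ 1 := by
    by_cases hz : z ∈ I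
    · exact walk ρ f' h2 (by tauto)
    · exact walk ρ f h1 (by tauto)
  exact ⟨x, h3, h4, ⟨y, h5, h6⟩, x, h4, by simp [tdist_self]⟩

/-- The faces that are not ordinary lie next to an outer face. -/
theorem out_of_flux {R : Reg M} {B : Gauge M} (hB : IsSign B) {f : Tor M}
    (hf : |flux (R.pw * B) f| ≠ 1) : ∃ f', f' ∉ R.In ∧ tdist f' f ≤ 1 := by
  by_contra h
  have h0 : ∀ g, tdist g f ≤ 1 → g ∈ R.In := fun g hg => by_contra fun h' => h ⟨g, h', hg⟩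
  have h1 : ∀ e, tdist e.1 f ≤ 1 → tdist (oth e) f ≤ 1 → R.pw e = 1 := fun e a b => by
    simp [Reg.pw, h0 _ a, h0 _ b]
  have s : tdist f f ≤ 1 := by simp [tdist_self]
  have a := h1 (f, 0) s (tdist_sub_uv f _)
  have b := h1 (f + uv M 0, 1) (tdist_uv f 0) (by simpa [oth] using s)
  have c := h1 (f + uv M 1, 0) (tdist_uv f 1) (by simpa [oth] using s)
  have d := h1 (f, 1) s (tdist_sub_uv f _)
  have e : flux (R.pw * B) f = flux B f := by simp only [flux, Pi.mul_apply, a, b, c, d, one_mul]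
  rcases flux_sign hB f with h2 | h2 <;> simp [e, h2] at hf

/-- The strings have no flux near the boundary. -/
theorem flat_near {R : Reg M} {B : Gauge M} (h : Shape R.In α (1 / 8) r) (hB : Str R.pw B r)
    (hM : 2 * r + 1 ≤ M) {d ρ : ℕ} (hz : NearB R.In d z) (hρ : d + ρ + 4 ≤ r) : Flat B z ρ := by
  intro f hf
  refine (flux_sign hB.sign f).resolve_right fun hfl => ?_
  obtain ⟨⟨g, g1, g2⟩, g', g3, g4⟩ := hz
  have t1 := tdist_triangle g z f
  have t2 := tdist_triangle g' z f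
  rw [tdist_comm z f] at t1 t2
  rcases hB.fl f hfl with h1 | h1
  · have h2 : ∀ e, tdist e.1 f ≤ r → e.1 ∈ R.In ∨ oth e ∈ R.In := by
      intro e he
      have h3 := h1 e he
      by_contra h4
      push Not at h4
      cases hfr : R.fr <;> simp [Reg.pw, hfr, h4.1, h4.2, tT_ne.2] at h3
    obtain ⟨S, ν, n1, n2, n3, n4⟩ := (h g').exists_out g3 (by simp [tdist_self])
    obtain ⟨e, he, he'⟩ := exists_best n1
    have n5 : g' + prj M (-e) ∉ R.In := by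
      refine n4 _ ?_ (epi_out n2 n3 ?_)
      · rcases he with rfl | rfl | rfl | rfl <;> simp [zd] <;> omega
      · have : lft (g' - g') - -e = e := by simp [lft]
        rw [this]
        refine le_trans ?_ he'
        have := len_le e
        rcases he with rfl | rfl | rfl | rfl <;> simp at this ⊢ <;> linarith
    have t3 := fun i => tdist_triangle (g' + uv M i) g' f
    have t4 := tdist_uv g'
    rcases he with rfl | rfl | rfl | rfl
    · refine (h2 (g', 1) (by simp only; omega)).elim g3 fun h => n5 ?_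
      simpa [oth, uv, prj, sub_eq_add_neg] using h
    · refine (h2 (g', 0) (by simp only; omega)).elim g3 fun h => n5 ?_
      simpa [oth, uv, prj, sub_eq_add_neg] using h
    · refine (h2 (g' + uv M 0, 1) (by have := t3 0; have := t4 0; simp only; omega)).elim
        (fun h => n5 ?_) fun h => g3 ?_
      · simpa [uv, prj] using h
      · simpa [oth] using h
    · refine (h2 (g' + uv M 1, 0) (by have := t3 1; have := t4 1; simp only; omega)).elim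
        (fun h => n5 ?_) fun h => g3 ?_
      · simpa [uv, prj] using h
      · simpa [oth] using h
  · have h3 := h1 (g, 0) (by simp only; omega)
    cases hfr : R.fr
    · simp [Reg.pw, hfr, g1] at h3
    · simp only [Reg.pw, hfr, if_true] at h3
      split_ifs at h3
      · exact one_ne_zero h3
      · exact tT_ne.1 h3

/-- From the plane to the torus. -/
theorem ShapeZ.shape {Λ : Finset (ℤ × ℤ)} (h : ShapeZ Λ α κ r) {T : ℕ} (hΛ : ∀ v ∈ Λ, zd v 0 ≤ T)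
    (hM : 2 * (T + r) + 1 ≤ M) : Shape (Λ.image (prj M)) α κ r := by
  intro z
  obtain ⟨S₁, S₂, ν₁, ν₂, h1, h2, h3, h4, h5, h6⟩ := h (lft z)
  refine ⟨S₁, S₂, ν₁, ν₂, h1, h2, h3, h4, h5, fun v hv => Iff.trans ?_ (h6 v hv)⟩
  rw [mem_image]
  constructor
  · rintro ⟨u, hu, e⟩
    have h7 := hΛ u hu
    simp only [zd, Prod.fst_zero, Prod.snd_zero, sub_zero, max_le_iff] at h7 hv
    have h8 : lft z = u - v := by
      rw [← lft_prj (M := M) (v := u - v), G.prj_sub, e, add_sub_cancel_right] <;>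
        simp only [Prod.fst_sub, Prod.snd_sub, Int.abs_eq_natAbs] <;> omega
    rwa [h8, sub_add_cancel]
  · intro hu
    exact ⟨_, hu, by rw [G.prj_add, prj_lft]⟩

end Vale.Agent.P144Z
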