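import Vale.Agent.P144D.DefsB
import Vale.Agent.P144Z.G.Basic

/-!
The trace property of the boundary layer, and the deep points of the outer components.
-/

namespace Vale.Agent.P144Z

open Finset Matrix

namespace B5a2

theorem cone_real {p y a b : ℝ} (hb : |b| ≤ a) (h1 : a ^ 2 + b ^ 2 = 1) (h : 3 * |y| ≤ 2 * p) :
    1 / 8 * √(p ^ 2 + y ^ 2) ≤ p * a + y * b := by
  have hy := abs_nonneg y
  have ha : 0 ≤ a := (abs_nonneg b).trans hb
  have h2 : b ^ 2 ≤ a ^ 2 := sq_le_sq' (abs_le.1 hb).1 (abs_le.1 hb).2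
  have h3 : 7 / 10 ≤ a := by nlinarith
  have h4 : √(p ^ 2 + y ^ 2) ≤ p + |y| := by
    rw [Real.sqrt_le_left (by linarith), ← sq_abs y]
    nlinarith
  have h5 : -(|y| * a) ≤ y * b := by
    have : |y * b| ≤ |y| * a := by
      rw [abs_mul]
      exact mul_le_mul_of_nonneg_left hb hy
    exact (abs_le.1 this).1
  nlinarith

/-- The four lattice cones. -/
def Cn (k : Fin 4) (d : ℤ × ℤ) : Prop :=
  ![3 * |d.2| ≤ 2 * d.1, 3 * |d.2| ≤ -(2 * d.1), 3 * |d.1| ≤ 2 * d.2, 3 * |d.1| ≤ -(2 * d.2)] k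

theorem exists_cone {S : Set (ℤ × ℤ)} {ν : ℂ} (hν : ‖ν‖ = 1) (h : Epi S ν (1 / 8)) :
    ∃ k, ∀ u ∈ S, ∀ d, Cn k d → u + d ∈ S := by
  have h1 : ν.re ^ 2 + ν.im ^ 2 = 1 := by
    have := Complex.sq_norm ν
    rw [hν, Complex.normSq_apply] at this
    linarith
  rcases le_total |ν.im| |ν.re| with h2 | h2
  · rcases le_total 0 ν.re with h3 | h3
    · refine ⟨0, fun u hu d hd => h u hu d ?_⟩
      rw [abs_of_nonneg h3] at h2
      exact cone_real h2 h1 (by exact_mod_cast (hd : 3 * |d.2| ≤ 2 * d.1))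
    · refine ⟨1, fun u hu d hd => h u hu d ?_⟩
      rw [abs_of_nonpos h3] at h2
      have hd' : 3 * |(d.2 : ℝ)| ≤ -(2 * d.1) := by exact_mod_cast (hd : 3 * |d.2| ≤ -(2 * d.1))
      have := cone_real (p := -d.1) (y := d.2) h2 (by linarith) (by linarith)
      rw [neg_sq, neg_mul_neg] at this
      exact this
  · rcases le_total 0 ν.im with h3 | h3
    · refine ⟨2, fun u hu d hd => h u hu d ?_⟩
      rw [abs_of_nonneg h3] at h2
      have := cone_real (p := d.2) (y := d.1) h2 (by linarith)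
        (by exact_mod_cast (hd : 3 * |d.1| ≤ 2 * d.2))
      rw [add_comm ((d.2 : ℝ) ^ 2), add_comm (_ * ν.im)] at this
      exact this
    · refine ⟨3, fun u hu d hd => h u hu d ?_⟩
      rw [abs_of_nonpos h3] at h2
      have hd' : 3 * |(d.1 : ℝ)| ≤ -(2 * d.2) := by exact_mod_cast (hd : 3 * |d.1| ≤ -(2 * d.2))
      have := cone_real (p := -d.2) (y := d.1) h2 (by linarith) (by linarith)
      rw [neg_sq, neg_mul_neg, add_comm ((d.2 : ℝ) ^ 2), add_comm (_ * ν.im)] at this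
      exact this

/-- The boundary layer of a set of the plane lattice. -/
def Lay (S : Set (ℤ × ℤ)) (v : ℤ × ℤ) : Prop :=
  (∃ f ∈ S, zd f v ≤ 2) ∧ ∃ f, f ∉ S ∧ zd f v ≤ 2

/-- The layer is short in the rows. -/
def Row (S : Set (ℤ × ℤ)) : Prop := ∀ v v', Lay S v → Lay S v' → v.2 = v'.2 → v'.1 ≤ v.1 + 9

/-- The layer is short in the columns. -/
def Col (S : Set (ℤ × ℤ)) : Prop := ∀ v v', Lay S v → Lay S v' → v.1 = v'.1 → v'.2 ≤ v.2 + 9

theorem row_or_col {S : Set (ℤ × ℤ)} {ν : ℂ} (hν : ‖ν‖ = 1) (h : Epi S ν (1 / 8)) :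
    Row S ∨ Col S := by
  obtain ⟨k, hk⟩ := exists_cone hν h
  have key : ∀ f ∈ S, ∀ f', f' ∉ S → ¬ Cn k (f' - f) := fun f hf f' hf' hc =>
    hf' (by simpa using hk f hf _ hc)
  fin_cases k
  · refine Or.inl fun v v' ⟨⟨f, hf, h1⟩, _⟩ ⟨_, f', hf', h2⟩ e => ?_
    have : ¬ 3 * |f'.2 - f.2| ≤ 2 * (f'.1 - f.1) := key f hf f' hf'
    simp only [zd, Int.abs_eq_natAbs] at h1 h2 this
    omega
  · refine Or.inl fun v v' ⟨_, f', hf', h2⟩ ⟨⟨f, hf, h1⟩, _⟩ e => ?_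
    have : ¬ 3 * |f'.2 - f.2| ≤ -(2 * (f'.1 - f.1)) := key f hf f' hf'
    simp only [zd, Int.abs_eq_natAbs] at h1 h2 this
    omega
  · refine Or.inr fun v v' ⟨⟨f, hf, h1⟩, _⟩ ⟨_, f', hf', h2⟩ e => ?_
    have : ¬ 3 * |f'.1 - f.1| ≤ 2 * (f'.2 - f.2) := key f hf f' hf'
    simp only [zd, Int.abs_eq_natAbs] at h1 h2 this
    omega
  · refine Or.inr fun v v' ⟨_, f', hf', h2⟩ ⟨⟨f, hf, h1⟩, _⟩ e => ?_
    have : ¬ 3 * |f'.1 - f.1| ≤ -(2 * (f'.2 - f.2)) := key f hf f' hf'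
    simp only [zd, Int.abs_eq_natAbs] at h1 h2 this
    omega

theorem card_le_ten {β : Type} (F : Finset β) (g : β → ℤ) (hg : Set.InjOn g F)
    (h : ∀ x ∈ F, ∀ y ∈ F, g y ≤ g x + 9) : F.card ≤ 10 := by
  rcases F.eq_empty_or_nonempty with rfl | hne
  · simp
  · obtain ⟨x, hx, hmin⟩ := F.exists_min_image g hne
    have := card_le_card_of_injOn (t := Icc (g x) (g x + 9)) g
      (fun y hy => by simpa using ⟨hmin y hy, h x hx y hy⟩) hg
    rw [Int.card_Icc] at this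
    omega

variable {M : ℕ} [NeZero M]

theorem tr_one {S : Set (ℤ × ℤ)} {ν : ℂ} (hν : ‖ν‖ = 1) (h : Epi S ν (1 / 8)) (z : Tor M) :
    ∃ Hs Vs : Finset (Tor M), (∀ x, Lay S (lft (x - z)) → x ∈ Hs ∨ x ∈ Vs) ∧
      (∀ t, (Hs.filter fun x => x.2 = t).card ≤ 10) ∧
      ∀ t, (Vs.filter fun x => x.1 = t).card ≤ 10 := by
  classical
  have inj : ∀ a b c : ZMod M, (a - c).valMinAbs = (b - c).valMinAbs → a = b := fun a b c e =>
    sub_left_injective (ZMod.valMinAbs_inj.1 e)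
  rcases row_or_col hν h with h | h
  · refine ⟨univ.filter fun x => Lay S (lft (x - z)), ∅, fun x hx => Or.inl (by simpa using hx),
      fun t => card_le_ten _ (fun x => (lft (x - z)).1) (fun x hx y hy e => ?_)
        fun x hx y hy => ?_, by simp⟩
    · simp only [coe_filter, Set.mem_ofPred_eq] at hx hy
      exact Prod.ext (inj _ _ _ e) (hx.2.trans hy.2.symm)
    · simp only [mem_filter, mem_univ, true_and] at hx hy
      exact h _ _ hx.1 hy.1 (by simp only [lft, Prod.snd_sub, hx.2, hy.2])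
  · refine ⟨∅, univ.filter fun x => Lay S (lft (x - z)), fun x hx => Or.inr (by simpa using hx),
      by simp, fun t => card_le_ten _ (fun x => (lft (x - z)).2) (fun x hx y hy e => ?_)
        fun x hx y hy => ?_⟩
    · simp only [coe_filter, Set.mem_ofPred_eq] at hx hy
      exact Prod.ext (hx.2.trans hy.2.symm) (inj _ _ _ e)
    · simp only [mem_filter, mem_univ, true_and] at hx hy
      exact h _ _ hx.1 hy.1 (by simp only [lft, Prod.fst_sub, hx.2, hy.2])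

/-- A point near `x`, read from `z`. -/
theorem exists_rep (z x f : Tor M) : ∃ w : ℤ × ℤ, z + prj M w = f ∧
    zd w (lft (x - z)) = tdist f x ∧ zd w 0 ≤ tdist x z + tdist f x := by
  refine ⟨lft (x - z) + lft (f - x), ?_, ?_, ?_⟩
  · rw [G.prj_add, prj_lft, prj_lft]
    abel
  · simp only [zd, G.tdist_def, Prod.fst_add, Prod.snd_add, add_sub_cancel_left]
  · simp only [zd, G.tdist_def, Prod.fst_add, Prod.snd_add, Prod.fst_zero, Prod.snd_zero]
    omega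

/-! ### Paths in the plane lattice -/

/-- Connection through points with the property `P`. -/
def PC (P : ℤ × ℤ → Prop) : ℤ × ℤ → ℤ × ℤ → Prop :=
  Relation.ReflTransGen fun u w => P u ∧ P w ∧
    (w = u + (1, 0) ∨ w = u + (0, 1) ∨ u = w + (1, 0) ∨ u = w + (0, 1))

theorem PC.symm {P : ℤ × ℤ → Prop} {u w : ℤ × ℤ} (h : PC P u w) : PC P w u := by
  induction h with
  | refl => exact Relation.ReflTransGen.refl
  | tail _ h ih => exact Relation.ReflTransGen.head ⟨h.2.1, h.1, by tauto⟩ ih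

theorem pc_row {P : ℤ × ℤ → Prop} (y : ℤ) (s t : ℤ)
    (h : ∀ j, min s t ≤ j → j ≤ max s t → P (j, y)) : PC P (s, y) (t, y) := by
  wlog hst : s ≤ t generalizing s t
  · exact (this t s (fun j h1 h2 => h j (by omega) (by omega)) (by omega)).symm
  induction t, hst using Int.leInduction with
  | base => exact Relation.ReflTransGen.refl
  | succ n hn ih =>
    exact (ih fun j h1 h2 => h j (by omega) (by omega)).tail
      ⟨h _ (by omega) (by omega), h _ (by omega) (by omega), Or.inl (by simp)⟩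

theorem pc_col {P : ℤ × ℤ → Prop} (x : ℤ) (s t : ℤ)
    (h : ∀ j, min s t ≤ j → j ≤ max s t → P (x, j)) : PC P (x, s) (x, t) := by
  wlog hst : s ≤ t generalizing s t
  · exact (this t s (fun j h1 h2 => h j (by omega) (by omega)) (by omega)).symm
  induction t, hst using Int.leInduction with
  | base => exact Relation.ReflTransGen.refl
  | succ n hn ih =>
    exact (ih fun j h1 h2 => h j (by omega) (by omega)).tail
      ⟨h _ (by omega) (by omega), h _ (by omega) (by omega), Or.inr (Or.inl (by simp))⟩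

theorem pc_far {Λ : Finset (ℤ × ℤ)} {T R : ℕ} (hΛ : ∀ v ∈ Λ, zd v 0 ≤ T) (hT : 1 ≤ T)
    (hR : 2 * T ≤ R) {v : ℤ × ℤ} (h1 : T < zd v 0) (h2 : zd v 0 ≤ R) :
    PC (fun x => x ∉ Λ ∧ zd x 0 ≤ R) v (2 * T, 0) := by
  have out : ∀ x y : ℤ, (T < x.natAbs ∨ T < y.natAbs) → x.natAbs ≤ R → y.natAbs ≤ R →
      (x, y) ∉ Λ ∧ zd (x, y) 0 ≤ R := by
    intro x y a b c
    refine ⟨fun h => ?_, ?_⟩
    · have := hΛ _ h
      simp only [zd, Prod.fst_zero, Prod.snd_zero, sub_zero] at this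
      omega
    · simp only [zd, Prod.fst_zero, Prod.snd_zero, sub_zero]
      omega
  have key : ∀ x y : ℤ, T < y.natAbs → x.natAbs ≤ R → y.natAbs ≤ R →
      PC (fun x => x ∉ Λ ∧ zd x 0 ≤ R) (x, y) (2 * T, 0) := fun x y a b c =>
    (pc_row y x (2 * T) fun j _ _ => out _ _ (Or.inr a) (by omega) c).trans
      (pc_col (2 * T) y 0 fun j _ _ => out _ _ (Or.inl (by omega)) (by omega) (by omega))
  obtain ⟨x, y⟩ := v
  simp only [zd, Prod.fst_zero, Prod.snd_zero, sub_zero] at h1 h2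
  by_cases hy : T < y.natAbs
  · exact key x y hy (by omega) (by omega)
  · exact (pc_col x y (2 * T) fun j _ _ => out _ _ (Or.inl (by omega)) (by omega) (by omega)).trans
      (key x (2 * T) (by omega) (by omega) (by omega))

/-- An outer point is joined to a deep outer point. -/
theorem pc_deep {Λ : Finset (ℤ × ℤ)} {α : ℝ} {r s R : ℕ} (h : ShapeZ Λ α (1 / 8) r)
    (hs : 4 * s ≤ r) {v : ℤ × ℤ} (hv : v ∉ Λ) (hR : zd v 0 + 3 * s ≤ R) :
    ∃ y, zd y 0 ≤ R ∧ (∀ w, zd w y ≤ s → w ∉ Λ) ∧ PC (fun x => x ∉ Λ ∧ zd x 0 ≤ R) v y := by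
  obtain ⟨k, hk⟩ : ∃ k, ∀ w, zd w v ≤ r → Cn k (v - w) → w ∉ Λ := by
    obtain ⟨S₁, S₂, ν₁, ν₂, n1, n2, -, e1, e2, hI⟩ := h v
    have key : ∀ {S : Set (ℤ × ℤ)} {ν : ℂ}, ‖ν‖ = 1 → Epi S ν (1 / 8) → (0 : ℤ × ℤ) ∉ S →
        (∀ d, zd d 0 ≤ r → v + d ∈ Λ → d ∈ S) → ∃ k, ∀ w, zd w v ≤ r → Cn k (v - w) → w ∉ Λ := by
      intro S ν n e h0 hS
      obtain ⟨k, hk⟩ := exists_cone n e
      refine ⟨k, fun w hw hc hwΛ => h0 ?_⟩
      simpa using hk _ (hS (w - v) (by simpa [zd] using hw) (by simpa using hwΛ)) _ hc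
    have h0 : ¬ ((0 : ℤ × ℤ) ∈ S₁ ∧ (0 : ℤ × ℤ) ∈ S₂) := fun h0 =>
      hv (by simpa using (hI 0 (by simp [zd])).2 h0)
    rcases not_and_or.1 h0 with h0 | h0
    · exact key n1 e1 h0 fun d hd hd' => ((hI d hd).1 hd').1
    · exact key n2 e2 h0 fun d hd hd' => ((hI d hd).1 hd').2
  obtain ⟨x, y⟩ := v
  simp only [zd, Prod.fst_zero, Prod.snd_zero, sub_zero] at hR
  fin_cases k
  · have hk : ∀ w : ℤ × ℤ, zd w (x, y) ≤ r → 3 * |y - w.2| ≤ 2 * (x - w.1) → w ∉ Λ := hk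
    simp only [zd, Int.abs_eq_natAbs, Prod.fst_zero, Prod.snd_zero, sub_zero] at hk ⊢
    exact ⟨(x - 3 * s, y), by simp only; omega, fun w hw => hk w (by omega) (by omega),
      pc_row y x _ fun j _ _ => ⟨hk _ (by simp only; omega) (by simp only; omega),
        by simp only; omega⟩⟩
  · have hk : ∀ w : ℤ × ℤ, zd w (x, y) ≤ r → 3 * |y - w.2| ≤ -(2 * (x - w.1)) → w ∉ Λ := hk
    simp only [zd, Int.abs_eq_natAbs, Prod.fst_zero, Prod.snd_zero, sub_zero] at hk ⊢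
    exact ⟨(x + 3 * s, y), by simp only; omega, fun w hw => hk w (by omega) (by omega),
      pc_row y x _ fun j _ _ => ⟨hk _ (by simp only; omega) (by simp only; omega),
        by simp only; omega⟩⟩
  · have hk : ∀ w : ℤ × ℤ, zd w (x, y) ≤ r → 3 * |x - w.1| ≤ 2 * (y - w.2) → w ∉ Λ := hk
    simp only [zd, Int.abs_eq_natAbs, Prod.fst_zero, Prod.snd_zero, sub_zero] at hk ⊢
    exact ⟨(x, y - 3 * s), by simp only; omega, fun w hw => hk w (by omega) (by omega),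
      pc_col x y _ fun j _ _ => ⟨hk _ (by simp only; omega) (by simp only; omega),
        by simp only; omega⟩⟩
  · have hk : ∀ w : ℤ × ℤ, zd w (x, y) ≤ r → 3 * |x - w.1| ≤ -(2 * (y - w.2)) → w ∉ Λ := hk
    simp only [zd, Int.abs_eq_natAbs, Prod.fst_zero, Prod.snd_zero, sub_zero] at hk ⊢
    exact ⟨(x, y + 3 * s), by simp only; omega, fun w hw => hk w (by omega) (by omega),
      pc_col x y _ fun j _ _ => ⟨hk _ (by simp only; omega) (by simp only; omega),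
        by simp only; omega⟩⟩

/-- A separated net. -/
theorem exists_net (D : Finset (ℤ × ℤ)) (s : ℕ) : ∃ F ⊆ D,
    (∀ x ∈ F, ∀ y ∈ F, x ≠ y → s < zd x y) ∧ ∀ y ∈ D, ∃ x ∈ F, zd y x ≤ s := by
  classical
  obtain ⟨F, hF, hmax⟩ := exists_max_image
    (D.powerset.filter fun F => ∀ x ∈ F, ∀ y ∈ F, x ≠ y → s < zd x y) card ⟨∅, by simp⟩
  simp only [mem_filter, mem_powerset] at hF hmax
  refine ⟨F, hF.1, hF.2, fun y hy => ?_⟩
  by_contra hn
  have hn : ∀ x ∈ F, s < zd y x := fun x hx => not_le.1 fun h => hn ⟨x, hx, h⟩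
  have hyF : y ∉ F := fun h => by simpa [zd] using hn y h
  have := hmax (insert y F) ⟨insert_subset hy hF.1, fun a ha b hb hab => by
    rcases mem_insert.1 ha with rfl | ha' <;> rcases mem_insert.1 hb with rfl | hb'
    · exact absurd rfl hab
    · exact hn b hb'
    · have := hn a ha'
      simp only [zd] at this ⊢
      omega
    · exact hF.2 a ha' b hb' hab⟩
  rw [card_insert_of_notMem hyF] at this
  omega

theorem card_net {F : Finset (ℤ × ℤ)} {s T n : ℕ} (hT : ∀ x ∈ F, zd x 0 ≤ T)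
    (hF : ∀ x ∈ F, ∀ y ∈ F, x ≠ y → s < zd x y) (hn : 2 * T ≤ n * (s + 1)) :
    F.card ≤ (n + 1) ^ 2 := by
  have k : ∀ a : ℕ, a ≤ 2 * T → a / (s + 1) < n + 1 := fun a ha =>
    Nat.lt_succ_of_le (Nat.div_le_of_le_mul (by rw [mul_comm]; omega))
  have k' : ∀ a b : ℕ, a / (s + 1) = b / (s + 1) → a ≤ b + s := by
    intro a b e
    have h1 := Nat.div_add_mod a (s + 1)
    have h2 := Nat.div_add_mod b (s + 1)
    have h3 : a % (s + 1) < s + 1 := Nat.mod_lt a (Nat.succ_pos s)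
    rw [e] at h1
    omega
  have := card_le_card_of_injOn (s := F) (t := range (n + 1) ×ˢ range (n + 1))
    (fun x => ((x.1 + T).toNat / (s + 1), (x.2 + T).toNat / (s + 1))) (fun x hx => by
      have := hT x hx
      simp only [zd, Prod.fst_zero, Prod.snd_zero, sub_zero] at this
      exact mem_coe.2 (mem_product.2 ⟨mem_range.2 (k _ (by omega)), mem_range.2 (k _ (by omega))⟩))
    (fun x hx y hy e => by
      by_contra hne
      have h1 := hT x hx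
      have h2 := hT y hy
      have h3 := hF x hx y hy hne
      have h4 := k' _ _ (congrArg Prod.fst e)
      have h5 := k' _ _ (congrArg Prod.fst e).symm
      have h6 := k' _ _ (congrArg Prod.snd e)
      have h7 := k' _ _ (congrArg Prod.snd e).symm
      simp only [zd, Prod.fst_zero, Prod.snd_zero, sub_zero] at h1 h2 h3
      omega)
  rwa [card_product, card_range, ← sq] at this

omit [NeZero M] in
theorem outConn_of_pc {Λ : Finset (ℤ × ℤ)} {T R : ℕ} (hΛ : ∀ v ∈ Λ, zd v 0 ≤ T)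
    (hM : T + R < M) {u w : ℤ × ℤ} (h : PC (fun x => x ∉ Λ ∧ zd x 0 ≤ R) u w) :
    OutConn (Λ.image (prj M)) (prj M u) (prj M w) := by
  have one : ∀ a b : ℤ, (a : ZMod M) = b → (a - b).natAbs < M → a = b := by
    intro a b e hab
    have := Int.eq_zero_of_dvd_of_natAbs_lt_natAbs
      ((ZMod.intCast_eq_intCast_iff_dvd_sub b a M).1 e.symm) (by simpa using hab)
    omega
  have out : ∀ x, x ∉ Λ ∧ zd x 0 ≤ R → prj M x ∉ Λ.image (prj M) := by
    intro x hx hi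
    obtain ⟨v, hv, e⟩ := mem_image.1 hi
    have h1 := hΛ v hv
    have h2 := hx.2
    simp only [zd, Prod.fst_zero, Prod.snd_zero, sub_zero] at h1 h2
    have : v = x := Prod.ext (one _ _ (congrArg Prod.fst e) (by omega))
      (one _ _ (congrArg Prod.snd e) (by omega))
    exact hx.1 (this ▸ hv)
  induction h with
  | refl => exact Relation.ReflTransGen.refl
  | tail _ hab ih =>
    refine ih.tail ⟨out _ hab.1, out _ hab.2.1, ?_⟩
    rcases hab.2.2 with e | e | e | e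
    · exact ⟨0, Or.inl (by rw [e, G.prj_add, G.uv_zero])⟩
    · exact ⟨1, Or.inl (by rw [e, G.prj_add, G.uv_one])⟩
    · exact ⟨0, Or.inr (by rw [e, G.prj_add, G.uv_zero])⟩
    · exact ⟨1, Or.inr (by rw [e, G.prj_add, G.uv_one])⟩

/-- The index of the tile. -/
theorem exists_ix {q T n : ℕ} (hq : 0 < q) (hn : 2 * T < n * q) (t : ℤ) :
    ∃ a : ℕ, t.natAbs ≤ T → a < n ∧ (t - (((q * a : ℕ) : ℤ) - T)).natAbs ≤ q := by
  refine ⟨(t + T).toNat / q, fun ht => ?_⟩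
  have a1 := Nat.div_add_mod (t + T).toNat q
  have a2 := Nat.mod_lt (t + T).toNat hq
  exact ⟨(Nat.div_lt_iff_lt_mul hq).2 (by omega), by omega⟩

theorem exists_tiles {q T n : ℕ} (hq : 0 < q) (hn : 2 * T < n * q) :
    ∃ (ix : ZMod M → ℕ) (c : ℕ → ℕ → Tor M), ∀ x : Tor M, tdist x 0 ≤ T →
      ix x.1 < n ∧ ix x.2 < n ∧ tdist x (c (ix x.1) (ix x.2)) ≤ q := by
  choose ix hix using exists_ix hq hn
  refine ⟨fun t => ix t.valMinAbs,
    fun a b => prj M (((q * a : ℕ) : ℤ) - T, ((q * b : ℕ) : ℤ) - T), fun x hx => ?_⟩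
  rw [G.tdist_def, sub_zero] at hx
  obtain ⟨b1, b2⟩ := hix x.1.valMinAbs (le_of_max_le_left hx)
  obtain ⟨b3, b4⟩ := hix x.2.valMinAbs (le_of_max_le_right hx)
  refine ⟨b1, b3, ?_⟩
  dsimp only
  generalize ix x.1.valMinAbs = a at b2 ⊢
  generalize ix x.2.valMinAbs = b at b4 ⊢
  have := (tdist_prj_le (M := M) (lft x) (((q * a : ℕ) : ℤ) - T, ((q * b : ℕ) : ℤ) - T)).trans
    (max_le b2 b4)
  rwa [prj_lft] at this

theorem card_tiles {β : Type} [DecidableEq β] {X : Finset β} (n : ℕ) (Y : ℕ → Finset β)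
    (hY : ∀ a, (Y a).card ≤ 24) (h : ∀ x ∈ X, ∃ a ∈ range n, x ∈ Y a) : X.card ≤ n * 24 := by
  have := card_biUnion_le_card_mul (range n) Y 24 fun a _ => hY a
  rw [card_range] at this
  exact (card_le_card fun x hx => mem_biUnion.2 (h x hx)).trans this

theorem pc_box {Λ : Finset (ℤ × ℤ)} {s R : ℕ} {x y : ℤ × ℤ} (x1 : zd x 0 ≤ R) (y1 : zd y 0 ≤ R)
    (x2 : ∀ w, zd w x ≤ s → w ∉ Λ) (hyx : zd y x ≤ s) :
    PC (fun x => x ∉ Λ ∧ zd x 0 ≤ R) y x := by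
  obtain ⟨p, q⟩ := y
  obtain ⟨p', q'⟩ := x
  simp only [zd, Prod.fst_zero, Prod.snd_zero, sub_zero] at x1 x2 y1 hyx ⊢
  exact (pc_row q p p' fun j _ _ => ⟨x2 _ (by simp only; omega), by simp only; omega⟩).trans
    (pc_col p' q q' fun j _ _ => ⟨x2 _ (by simp only; omega), by simp only; omega⟩)

theorem exists_deep_net (Λ : Finset (ℤ × ℤ)) (T s : ℕ) : ∃ F : Finset (ℤ × ℤ),
    (∀ x ∈ F, zd x 0 ≤ T) ∧ (∀ x ∈ F, ∀ w, zd w x ≤ s → w ∉ Λ) ∧
    (∀ x ∈ F, ∀ y ∈ F, x ≠ y → s < zd x y) ∧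
    ∀ y, zd y 0 ≤ T → (∀ w, zd w y ≤ s → w ∉ Λ) → ∃ x ∈ F, zd y x ≤ s := by
  classical
  obtain ⟨F, hFD, hF, hnet⟩ := exists_net ((Icc (-(T : ℤ)) T ×ˢ Icc (-(T : ℤ)) T).filter
    fun y => ∀ w, zd w y ≤ s → w ∉ Λ) s
  have hD : ∀ y, y ∈ ((Icc (-(T : ℤ)) T ×ˢ Icc (-(T : ℤ)) T).filter
      fun y => ∀ w, zd w y ≤ s → w ∉ Λ) ↔ zd y 0 ≤ T ∧ ∀ w, zd w y ≤ s → w ∉ Λ := by
    intro y
    rw [mem_filter, mem_product, mem_Icc, mem_Icc]
    refine and_congr_left fun _ => ?_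
    simp only [zd, Prod.fst_zero, Prod.snd_zero, sub_zero]
    omega
  exact ⟨F, fun x hx => ((hD x).1 (hFD hx)).1, fun x hx => ((hD x).1 (hFD hx)).2, hF,
    fun y h1 h2 => hnet y ((hD y).2 ⟨h1, h2⟩)⟩

theorem holes_of_net {Λ F : Finset (ℤ × ℤ)} {T s : ℕ} (hΛ : ∀ v ∈ Λ, zd v 0 ≤ T) (hs : s < T)
    (hF1 : ∀ x ∈ F, zd x 0 ≤ T) (hF2 : ∀ x ∈ F, ∀ w, zd w x ≤ s → w ∉ Λ)
    (hF : ∀ x ∈ F, ∀ y ∈ F, x ≠ y → s < zd x y) :
    Holes Λ (2 * T) s (2 * T, 0) fun i => (F.equivFin.symm i).1 := by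
  refine ⟨fun v hv => (hΛ v hv).trans (by omega), ?_,
    fun i => (hF1 _ (coe_mem _)).trans (by omega), fun v hv hv' => ?_,
    fun i => hF2 _ (coe_mem _), fun i => ?_, fun i i' hne => hF _ (coe_mem _)
      _ (coe_mem _) fun e => hne (F.equivFin.symm.injective (Subtype.ext e))⟩
  · simp only [zd, Prod.fst_zero, Prod.snd_zero, sub_zero]
    omega
  · have := hΛ v hv'
    simp only [zd, Prod.fst_zero, Prod.snd_zero, sub_zero] at this hv
    omega
  · have := hF1 _ (coe_mem (F.equivFin.symm i))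
    simp only [zd, Prod.fst_zero, Prod.snd_zero, sub_zero] at this ⊢
    omega

end B5a2

section B5a
variable {M : ℕ} [NeZero M] {I : Finset (Tor M)} {α κ : ℝ} {r : ℕ} {z : Tor M}

open B5a2 in
/-- The local trace property. -/
theorem tr_of_shape (h : ShapeAt I α (1 / 8) r z) (hM : 2 * r + 1 ≤ M) {ρ : ℕ} (hρ : ρ + 2 ≤ r) :
    TrB I z ρ 24 := by
  obtain ⟨S₁, S₂, ν₁, ν₂, n1, n2, -, e1, e2, hI⟩ := h
  obtain ⟨H₁, V₁, a1, b1, c1⟩ := tr_one n1 e1 z
  obtain ⟨H₂, V₂, a2, b2, c2⟩ := tr_one n2 e2 z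
  refine ⟨H₁ ∪ H₂, V₁ ∪ V₂, fun x hx hn => ?_, fun t => ?_, fun t => ?_⟩
  · obtain ⟨⟨f, hf, hfx⟩, f', hf', hfx'⟩ := hn
    obtain ⟨w, rfl, w1, w2⟩ := exists_rep z x f
    obtain ⟨w', rfl, w1', w2'⟩ := exists_rep z x f'
    have h1 := (hI w (by omega)).1 hf
    have h2 := mt (hI w' (by omega)).2 hf'
    simp only [mem_union]
    rcases not_and_or.1 h2 with h2 | h2
    · exact (a1 x ⟨⟨w, h1.1, w1 ▸ hfx⟩, w', h2, w1' ▸ hfx'⟩).imp Or.inl Or.inl
    · exact (a2 x ⟨⟨w, h1.2, w1 ▸ hfx⟩, w', h2, w1' ▸ hfx'⟩).imp Or.inr Or.inr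
  · rw [filter_union]
    have := card_union_le (H₁.filter fun x => x.2 = t) (H₂.filter fun x => x.2 = t)
    have := b1 t
    have := b2 t
    omega
  · rw [filter_union]
    have := card_union_le (V₁.filter fun x => x.1 = t) (V₂.filter fun x => x.1 = t)
    have := c1 t
    have := c2 t
    omega

/-- The global trace property. -/
theorem tr_global (h : Shape I α (1 / 8) r) (hr : 8 ≤ r) {T Λ : ℕ} (hI : ∀ f ∈ I, tdist f 0 ≤ T)
    (hΛ : T ≤ Λ * r) (hM : 4 * (T + r) ≤ M) (z : Tor M) (ρ : ℕ) :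
    TrB I z ρ (100 * (Λ + 1)) := by
  classical
  obtain ⟨q, rfl⟩ : ∃ q, r = q + 2 := ⟨r - 2, by omega⟩
  have a4 : Λ * 6 ≤ Λ * q := Nat.mul_le_mul_left _ (by omega)
  obtain ⟨ix, c, hc⟩ := B5a2.exists_tiles (M := M) (q := q) (T := T + 2) (n := 4 * (Λ + 1))
    (by omega) (by nlinarith)
  choose H V h1 h2 h3 using fun a b => tr_of_shape (h (c a b)) (by omega) (ρ := q) le_rfl
  obtain ⟨Hs, hH⟩ : ∃ Hs : Finset (Tor M), ∀ x, x ∈ Hs ↔
      ∃ a ∈ range (4 * (Λ + 1)), x ∈ H a (ix x.2) :=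
    ⟨univ.filter _, fun x => mem_filter.trans (and_iff_right (mem_univ x))⟩
  obtain ⟨Vs, hV⟩ : ∃ Vs : Finset (Tor M), ∀ x, x ∈ Vs ↔
      ∃ b ∈ range (4 * (Λ + 1)), x ∈ V (ix x.1) b :=
    ⟨univ.filter _, fun x => mem_filter.trans (and_iff_right (mem_univ x))⟩
  refine ⟨Hs, Vs, fun x _ hn => ?_, fun t => ?_, fun t => ?_⟩
  · obtain ⟨f, hf, hfx⟩ := hn.1
    have a1 := tdist_triangle x f 0
    have a2 := hI f hf
    rw [tdist_comm x f] at a1
    obtain ⟨b1, b3, a3⟩ := hc x (by omega)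
    exact (h1 _ _ x a3 hn).imp (fun e => (hH x).2 ⟨_, mem_range.2 b1, e⟩)
      fun e => (hV x).2 ⟨_, mem_range.2 b3, e⟩
  · refine (B5a2.card_tiles (4 * (Λ + 1)) (fun a => (H a (ix t)).filter fun x => x.2 = t)
      (fun a => h2 a _ t) fun x hx => ?_).trans (by omega)
    obtain ⟨h4, h5⟩ := mem_filter.1 hx
    obtain ⟨a, ha, e⟩ := (hH x).1 h4
    exact ⟨a, ha, mem_filter.2 ⟨h5 ▸ e, h5⟩⟩
  · refine (B5a2.card_tiles (4 * (Λ + 1)) (fun b => (V (ix t) b).filter fun x => x.1 = t)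
      (fun b => h3 _ b t) fun x hx => ?_).trans (by omega)
    obtain ⟨h4, h5⟩ := mem_filter.1 hx
    obtain ⟨a, ha, e⟩ := (hV x).1 h4
    exact ⟨a, ha, mem_filter.2 ⟨h5 ▸ e, h5⟩⟩

open B5a2 in
/-- Deep points of the outer components. -/
theorem exists_holes (Λ₀ : ℕ) : ∃ H₀ : ℕ, ∀ (Λ : Finset (ℤ × ℤ)) (α : ℝ) (T r : ℕ),
    ShapeZ Λ α (1 / 8) r → 64 ≤ r → r ≤ T → T ≤ Λ₀ * r → (∀ v ∈ Λ, zd v 0 ≤ T) →
    ∃ H ≤ H₀, ∃ (a : ℤ × ℤ) (hs : Fin H → ℤ × ℤ), Holes Λ (2 * T) (r / 64) a hs ∧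
      ∀ (M : ℕ) [NeZero M], 8 * T ≤ M → ∀ u, u ∉ Λ.image (prj M) →
        OutConn (Λ.image (prj M)) u (prj M a) ∨
          ∃ i, OutConn (Λ.image (prj M)) u (prj M (hs i)) := by
  refine ⟨(128 * Λ₀ + 1) ^ 2, fun Λ α T r h hr hrT hT hΛ => ?_⟩
  have hs1 : 64 * (r / 64) ≤ r := Nat.mul_div_le r 64
  have hs2 : r < 64 * (r / 64 + 1) := by omega
  generalize r / 64 = s at hs1 hs2
  obtain ⟨F, hF1, hF2, hF, hnet⟩ := exists_deep_net Λ T s
  have hs3 : Λ₀ * r ≤ Λ₀ * (64 * (s + 1)) := Nat.mul_le_mul_left _ hs2.le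
  refine ⟨F.card, card_net hF1 hF (by linarith), (2 * T, 0), fun i => (F.equivFin.symm i).1,
    holes_of_net hΛ (by omega) hF1 hF2 hF, ?_⟩
  intro M _ hM u hu
  have hu1 : lft u ∉ Λ := fun e => hu (mem_image.2 ⟨_, e, prj_lft u⟩)
  have hu2 : zd (lft u) 0 ≤ M / 2 := by
    have := tdist_le u 0
    rw [G.tdist_def, sub_zero] at this
    simp only [zd, Prod.fst_zero, Prod.snd_zero, sub_zero]
    omega
  have key : ∀ w, PC (fun x => x ∉ Λ ∧ zd x 0 ≤ M / 2) (lft u) w →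
      OutConn (Λ.image (prj M)) u (prj M w) := fun w hw => by
    have := outConn_of_pc (M := M) hΛ (by omega) hw
    rwa [prj_lft] at this
  by_cases hfar : T < zd (lft u) 0
  · exact Or.inl (key _ (pc_far hΛ (by omega) (by omega) hfar hu2))
  obtain ⟨y, y1, y2, y3⟩ := pc_deep h (s := s) (R := M / 2) (by omega) hu1 (by omega)
  by_cases hy : T < zd y 0
  · exact Or.inl (key _ (y3.trans (pc_far hΛ (by omega) (by omega) hy y1)))
  obtain ⟨x, hx, hyx⟩ := hnet y (not_lt.1 hy) y2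
  refine Or.inr ⟨F.equivFin ⟨x, hx⟩, key _ ?_⟩
  simp only [Equiv.symm_apply_apply]
  exact y3.trans (pc_box ((hF1 x hx).trans (by omega)) y1 (hF2 x hx) hyx)

end B5a

end Vale.Agent.P144Z
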