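import Vale.Agent.P144D.DefsB

/-!
The covering of the boundary layer by flat points and corners.
-/

namespace Vale.Agent.P144Z

open Finset

namespace B5b

/-- The square of radius `t`. -/
def Bx (t : ℤ) (v : ℤ × ℤ) : Prop := |v.1| ≤ t ∧ |v.2| ≤ t

theorem bx_iff {v : ℤ × ℤ} {n : ℕ} : zd v 0 ≤ n ↔ Bx n v := by
  simp only [zd, Bx, Prod.fst_zero, Prod.snd_zero, sub_zero, abs_le]
  omega

theorem Bx.mono {t t' : ℤ} {v : ℤ × ℤ} (h : Bx t v) (e : t ≤ t') : Bx t' v :=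
  ⟨h.1.trans e, h.2.trans e⟩

theorem Bx.add {t t' : ℤ} {v v' : ℤ × ℤ} (h : Bx t v) (h' : Bx t' v') : Bx (t + t') (v + v') :=
  ⟨(abs_add_le _ _).trans (add_le_add h.1 h'.1), (abs_add_le _ _).trans (add_le_add h.2 h'.2)⟩

theorem Bx.sub {t t' : ℤ} {v v' : ℤ × ℤ} (h : Bx t v) (h' : Bx t' v') : Bx (t + t') (v - v') :=
  ⟨(abs_sub _ _).trans (add_le_add h.1 h'.1), (abs_sub _ _).trans (add_le_add h.2 h'.2)⟩

theorem Bx.real {t : ℤ} {v : ℤ × ℤ} (h : Bx t v) : |(v.1 : ℝ)| ≤ t ∧ |(v.2 : ℝ)| ≤ t :=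
  ⟨by exact_mod_cast h.1, by exact_mod_cast h.2⟩

theorem Bx.len_le {t : ℤ} {v : ℤ × ℤ} (h : Bx t v) : len v ≤ 2 * t := by
  obtain ⟨h1, h2⟩ := h.real
  have h0 : (0 : ℝ) ≤ t := (abs_nonneg _).trans h1
  refine Real.sqrt_le_iff.2 ⟨by positivity, ?_⟩
  nlinarith [sq_abs (v.1 : ℝ), sq_abs (v.2 : ℝ), abs_nonneg (v.1 : ℝ), abs_nonneg (v.2 : ℝ)]

theorem Bx.ht_le {t : ℤ} {v : ℤ × ℤ} (h : Bx t v) {ν : ℂ} {s : ℝ} (hs : ‖ν‖ ≤ s) :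
    |ht ν v| ≤ 2 * s * t := by
  obtain ⟨h1, h2⟩ := h.real
  have h0 : (0 : ℝ) ≤ t := (abs_nonneg _).trans h1
  have h3 := (Complex.abs_re_le_norm ν).trans hs
  have h4 := (Complex.abs_im_le_norm ν).trans hs
  refine (abs_add_le _ _).trans ?_
  rw [abs_mul, abs_mul]
  have h5 := mul_le_mul h1 h3 (abs_nonneg _) h0
  have h6 := mul_le_mul h2 h4 (abs_nonneg _) h0
  linarith

theorem ht_add (ν : ℂ) (u v : ℤ × ℤ) : ht ν (u + v) = ht ν u + ht ν v := by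
  simp only [ht, Prod.fst_add, Prod.snd_add, Int.cast_add]
  ring

theorem ht_sub (ν : ℂ) (u v : ℤ × ℤ) : ht ν (u - v) = ht ν u - ht ν v := by
  simp only [ht, Prod.fst_sub, Prod.snd_sub, Int.cast_sub]
  ring

theorem ht_sub' (ν ν' : ℂ) (v : ℤ × ℤ) : ht (ν - ν') v = ht ν v - ht ν' v := by
  simp only [ht, Complex.sub_re, Complex.sub_im]
  ring

theorem epi_of {S : Set (ℤ × ℤ)} {ν : ℂ} {κ : ℝ} (h : Epi S ν κ) (hκ : 0 ≤ κ) {u u' : ℤ × ℤ}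
    {t : ℤ} (hu : u ∈ S) (hb : Bx t (u' - u)) (ht' : κ * (2 * t) ≤ ht ν (u' - u)) : u' ∈ S := by
  have h1 := h u hu (u' - u) ((mul_le_mul_of_nonneg_left hb.len_le hκ).trans ht')
  rwa [add_sub_cancel] at h1

/-- two points near the boundary of `S` have almost the same height -/
theorem level {S : Set (ℤ × ℤ)} {ν : ℂ} {κ l : ℝ} (h : Epi S ν κ) (hν : ‖ν‖ = 1) (hκ : 0 ≤ κ)
    {R t : ℤ} (hl : κ * (8 * R) ≤ l) (ht' : t ≤ R) {b b' e e' : ℤ × ℤ} (hb : Bx R b)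
    (hb' : Bx R b') (he : Bx t e) (he' : Bx t e') (h1 : b + e ∈ S) (h2 : b' + e' ∉ S) :
    ht ν (b' - b) ≤ l + 4 * t := by
  by_contra h3
  refine h2 (epi_of h hκ h1 (((hb'.add (he'.mono ht')).sub (hb.add (he.mono ht')))) ?_)
  have h4 := abs_le.1 ((he'.sub he).ht_le hν.le)
  have h5 : b' + e' - (b + e) = (b' - b) + (e' - e) := by abel
  rw [h5, ht_add]
  push_cast at h4 ⊢
  linarith [h4.1]

/-- there are points of `S` and of its complement within distance one -/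
def Nr (S : Set (ℤ × ℤ)) (b : ℤ × ℤ) : Prop :=
  (∃ d, Bx 1 d ∧ b + d ∈ S) ∧ ∃ d, Bx 1 d ∧ b + d ∉ S

theorem ediv_le {a a' m l : ℤ} (hl : 0 < l) (h : a ≤ a' + m * l) : a / l ≤ a' / l + m := by
  rw [← Int.add_mul_ediv_right _ _ hl.ne']
  exact Int.ediv_le_ediv hl h

theorem abs_ediv {a a' m l : ℤ} (hl : 0 < l) (h : |a - a'| ≤ m * l) : |a / l - a' / l| ≤ m := by
  rw [abs_le] at h ⊢
  have h1 := ediv_le (a := a) (a' := a') (m := m) hl (by linarith)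
  have h2 := ediv_le (a := a') (a' := a) (m := m) hl (by linarith)
  constructor <;> linarith

theorem abs_of_ediv {a a' l : ℤ} (hl : 0 < l) (h : a / l = a' / l) : |a - a'| ≤ l := by
  have h1 := Int.emod_add_mul_ediv a l
  have h2 := Int.emod_add_mul_ediv a' l
  have h3 := Int.emod_nonneg a hl.ne'
  have h4 := Int.emod_nonneg a' hl.ne'
  have h5 := Int.emod_lt_of_pos a hl
  have h6 := Int.emod_lt_of_pos a' hl
  rw [h] at h1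
  rw [abs_le]
  constructor <;> linarith

theorem cnt (T : Finset (ℤ × ℤ)) (f g : ℤ × ℤ → ℤ) (hi : ∀ k k', f k = f k' → g k = g k' → k = k')
    {N : ℕ} (h1 : ∀ k ∈ T, |f k| ≤ N) (h2 : ∀ k ∈ T, ∀ k' ∈ T, f k = f k' → |g k - g k'| ≤ 6) :
    T.card ≤ 13 * (2 * N + 1) := by
  refine (card_le_mul_card_image (f := f) T 13 fun a ha => ?_).trans (Nat.mul_le_mul_left _ ?_)
  · obtain ⟨k₀, k1, rfl⟩ := mem_image.1 ha
    refine (card_le_card_of_injOn (t := Icc (g k₀ - 6) (g k₀ + 6)) g (fun k hk => ?_)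
      fun k hk k' hk' e => ?_).trans (by rw [Int.card_Icc]; omega)
    · obtain ⟨o1, o2⟩ := mem_filter.1 hk
      have := abs_le.1 (h2 k o1 k₀ k1 o2)
      exact mem_coe.2 (mem_Icc.2 ⟨by linarith, by linarith⟩)
    · exact hi k k' ((mem_filter.1 hk).2.trans (mem_filter.1 hk').2.symm) e
  · refine (card_le_card (t := Icc (-(N : ℤ)) N) fun a ha => ?_).trans
      (by rw [Int.card_Icc]; omega)
    obtain ⟨k, k1, rfl⟩ := mem_image.1 ha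
    exact mem_Icc.2 (abs_le.1 (h1 k k1))

/-- the square of side `l` that contains `v` -/
def key (l : ℤ) (v : ℤ × ℤ) : ℤ × ℤ := (v.1 / l, v.2 / l)

theorem strip {a a' x y l : ℝ} (h : x ^ 2 ≤ y ^ 2) (h1 : x ^ 2 + y ^ 2 = 1) (h2 : |a| ≤ l)
    (h3 : |a * x + a' * y| ≤ 2 * l) : |a'| ≤ 6 * l := by
  have h4 : 1 / 2 ≤ |y| := by
    by_contra h4
    nlinarith [sq_abs y, abs_nonneg y]
  have h5 : |x| ≤ 1 := by
    by_contra h5
    nlinarith [sq_abs x, sq_nonneg y]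
  have h6 : |a' * y| ≤ 3 * l := by
    have h7 : a' * y = (a * x + a' * y) - a * x := by ring
    rw [h7]
    refine (abs_sub _ _).trans ?_
    rw [abs_mul]
    nlinarith [abs_nonneg a, abs_nonneg x]
  rw [abs_mul] at h6
  nlinarith [abs_nonneg a']

theorem sq_of_norm {ν : ℂ} (h : ‖ν‖ = 1) : ν.re ^ 2 + ν.im ^ 2 = 1 := by
  have h1 := Complex.sq_norm ν
  rw [h, Complex.normSq_apply] at h1
  linarith

/-- the number of squares that meet the layer -/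
theorem card_layer {S : Set (ℤ × ℤ)} {ν : ℂ} {κ : ℝ} (h : Epi S ν κ) (hν : ‖ν‖ = 1) (hκ : 0 ≤ κ)
    {N l : ℕ} (hN : 1 ≤ N) (hl : 4 ≤ l) (hκl : κ * (8 * N) ≤ 1) (T : Finset (ℤ × ℤ))
    (hT : ∀ k ∈ T, ∃ b, Bx (N * l) b ∧ Nr S b ∧ key l b = k) : T.card ≤ 13 * (2 * N + 1) := by
  have l0 : (0 : ℤ) < l := by omega
  have l1 : (4 : ℝ) ≤ l := by exact_mod_cast hl
  have lev : ∀ b b', Bx (N * l) b → Bx (N * l) b' → Nr S b → Nr S b' →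
      ht ν (b' - b) ≤ 2 * l := by
    rintro b b' h1 h2 ⟨⟨e, k1, k2⟩, -⟩ ⟨-, e', k3, k4⟩
    have h3 := level (l := l) h hν hκ (by
      push_cast
      nlinarith [mul_le_mul_of_nonneg_right hκl (show (0 : ℝ) ≤ l by linarith)])
      (show (1 : ℤ) ≤ N * l by nlinarith) h1 h2 k1 k3 k2 k4
    push_cast at h3
    linarith
  have lev' : ∀ b b', Bx (N * l) b → Bx (N * l) b' → Nr S b → Nr S b' →
      |((b - b').1 : ℝ) * ν.re + (b - b').2 * ν.im| ≤ 2 * l := by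
    intro b b' h1 h2 h3 h4
    have k1 := lev b b' h1 h2 h3 h4
    have k2 := lev b' b h2 h1 h4 h3
    rw [ht_sub] at k1 k2
    change |ht ν (b - b')| ≤ _
    rw [ht_sub, abs_le]
    constructor <;> linarith
  have h0 := sq_of_norm hν
  rcases le_total (ν.re ^ 2) (ν.im ^ 2) with c | c
  · refine cnt T Prod.fst Prod.snd (fun k k' => Prod.ext) (fun k hk => ?_) fun k hk k' hk' e => ?_
    · obtain ⟨b, h1, -, rfl⟩ := hT k hk
      simpa [key] using abs_ediv (a' := 0) l0 (by simpa using h1.1)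
    · obtain ⟨b, h1, h2, rfl⟩ := hT k hk
      obtain ⟨b', h3, h4, rfl⟩ := hT k' hk'
      have k1 : |((b - b').1 : ℝ)| ≤ l := by exact_mod_cast abs_of_ediv l0 e
      have k2 := strip c h0 k1 (lev' b b' h1 h3 h2 h4)
      exact abs_ediv l0 (by exact_mod_cast k2)
  · refine cnt T Prod.snd Prod.fst (fun k k' e e' => Prod.ext e' e) (fun k hk => ?_)
      fun k hk k' hk' e => ?_
    · obtain ⟨b, h1, -, rfl⟩ := hT k hk
      simpa [key] using abs_ediv (a' := 0) l0 (by simpa using h1.2)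
    · obtain ⟨b, h1, h2, rfl⟩ := hT k hk
      obtain ⟨b', h3, h4, rfl⟩ := hT k' hk'
      have k1 : |((b - b').2 : ℝ)| ≤ l := by exact_mod_cast abs_of_ediv l0 e
      have k2 := strip c (by linarith) k1 (by rw [add_comm]; exact lev' b b' h1 h3 h2 h4)
      exact abs_ediv l0 (by exact_mod_cast k2)

/-- two heights in independent directions control a vector -/
theorem cramer {ν₁ ν₂ : ℂ} {α κ A : ℝ} (h1 : ‖ν₁‖ = 1) (h2 : ‖ν₂‖ = 1) (hα : 0 < α) (hκ : 0 < κ)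
    (h3 : α ≤ ‖ν₁ + ν₂‖) (h4 : κ ≤ ‖ν₁ - ν₂‖) {w : ℤ × ℤ} (k1 : |ht ν₁ w| ≤ A)
    (k2 : |ht ν₂ w| ≤ A) : |(w.1 : ℝ)| ≤ 4 * A / (α * κ) ∧ |(w.2 : ℝ)| ≤ 4 * A / (α * κ) := by
  have e1 := sq_of_norm h1
  have e2 := sq_of_norm h2
  have e3 := Complex.sq_norm (ν₁ + ν₂)
  have e4 := Complex.sq_norm (ν₁ - ν₂)
  simp only [Complex.normSq_apply, Complex.add_re, Complex.add_im, Complex.sub_re,
    Complex.sub_im] at e3 e4
  have e5 : (‖ν₁ + ν₂‖ * ‖ν₁ - ν₂‖) ^ 2 = (2 * |ν₁.re * ν₂.im - ν₁.im * ν₂.re|) ^ 2 := by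
    rw [mul_pow, mul_pow, sq_abs, e3, e4]
    linear_combination (ν₁.re ^ 2 + ν₁.im ^ 2 - ν₂.re ^ 2 - ν₂.im ^ 2) * (e1 - e2)
  have e6 : α * κ ≤ 2 * |ν₁.re * ν₂.im - ν₁.im * ν₂.re| := by
    rw [← (sq_eq_sq₀ (by positivity) (by positivity)).1 e5]
    exact mul_le_mul h3 h4 hκ.le (norm_nonneg _)
  have key : ∀ (x s t : ℝ), |s| ≤ 1 → |t| ≤ 1 →
      x * (ν₁.re * ν₂.im - ν₁.im * ν₂.re) = ht ν₁ w * s - ht ν₂ w * t → |x| ≤ 4 * A / (α * κ) := by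
    intro x s t o1 o2 o3
    have o4 : |x| * |ν₁.re * ν₂.im - ν₁.im * ν₂.re| ≤ 2 * A := by
      rw [← abs_mul, o3]
      refine (abs_sub _ _).trans ?_
      rw [abs_mul, abs_mul]
      nlinarith [abs_nonneg (ht ν₁ w), abs_nonneg (ht ν₂ w), abs_nonneg s, abs_nonneg t]
    rw [le_div_iff₀ (mul_pos hα hκ)]
    nlinarith [mul_le_mul_of_nonneg_left e6 (abs_nonneg x)]
  exact ⟨key _ ν₂.im ν₁.im (h2 ▸ Complex.abs_im_le_norm _) (h1 ▸ Complex.abs_im_le_norm _)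
      (by simp only [ht]; ring),
    key _ (-ν₂.re) (-ν₁.re) (by rw [abs_neg]; exact h2 ▸ Complex.abs_re_le_norm _)
      (by rw [abs_neg]; exact h1 ▸ Complex.abs_re_le_norm _) (by simp only [ht]; ring)⟩

/-- `S` fills the square or its normal is close to `ν` -/
def Gd (S : Set (ℤ × ℤ)) (ν' ν : ℂ) (κ₁ : ℝ) (ρ : ℤ) (b : ℤ × ℤ) : Prop :=
  (∀ v, Bx (ρ + 1) v → b + v ∈ S) ∨ ‖ν - ν'‖ ≤ κ₁

theorem Gd.inn {S : Set (ℤ × ℤ)} {ν' ν : ℂ} {κ κ₁ : ℝ} {ρ : ℤ} {b d v : ℤ × ℤ}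
    (h : Gd S ν' ν κ₁ ρ b) (hS : Epi S ν' κ) (hκ : 0 ≤ κ) (hν : ‖ν‖ = 1) (hd : Bx 1 d)
    (hb : b + d ∈ S) (hv : Bx ρ v) (hw : 2 + 2 * (κ + κ₁) * (ρ + 1) ≤ ht ν v) : b + v ∈ S := by
  rcases h with h | h
  · exact h v (hv.mono (by omega))
  · have e : b + v - (b + d) = v - d := by abel
    refine epi_of hS hκ hb (t := ρ + 1) (e ▸ hv.sub hd) ?_
    have h1 := abs_le.1 ((hv.sub hd).ht_le h)
    have h2 := abs_le.1 (hd.ht_le hν.le)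
    rw [ht_sub', ht_sub] at h1
    rw [e]
    push_cast at h1 h2 ⊢
    linarith [h1.2, h2.2]

theorem Gd.out {S : Set (ℤ × ℤ)} {ν' ν : ℂ} {κ κ₁ : ℝ} {ρ : ℤ} {b d v : ℤ × ℤ}
    (h : Gd S ν' ν κ₁ ρ b) (hS : Epi S ν' κ) (hκ : 0 ≤ κ) (hν : ‖ν‖ = 1) (hd : Bx 1 d)
    (hb : b + d ∉ S) (hv : Bx ρ v) (hw : ht ν v ≤ -(2 + 2 * (κ + κ₁) * (ρ + 1))) :
    b + v ∉ S := by
  have h0 : 0 ≤ ρ := (abs_nonneg _).trans hv.1
  rcases h with h | h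
  · exact absurd (h d (hd.mono (by omega))) hb
  · have e : b + d - (b + v) = d - v := by abel
    refine fun o => hb (epi_of hS hκ o (t := 1 + ρ) (e ▸ hd.sub hv) ?_)
    have h1 := abs_le.1 ((hd.sub hv).ht_le h)
    have h2 := abs_le.1 (hd.ht_le hν.le)
    rw [ht_sub', ht_sub] at h1
    rw [e]
    push_cast at h1 h2 ⊢
    linarith [h1.2, h2.1]

/-- a square of radius `n l` is covered by few squares of radius `l` -/
theorem grid (b : ℤ × ℤ) (n : ℕ) {l : ℤ} (hl : 0 < l) : ∃ Y : Finset (ℤ × ℤ),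
    Y.card ≤ (2 * n + 1) ^ 2 ∧ ∀ x, Bx (n * l) (x - b) → ∃ y ∈ Y, Bx l (x - y) := by
  refine ⟨(Icc (-(n : ℤ)) n ×ˢ Icc (-(n : ℤ)) n).image fun k => (b.1 + l * k.1, b.2 + l * k.2),
    card_image_le.trans (le_of_eq ?_), fun x hx => ⟨_, mem_image.2 ⟨key l (x - b), ?_, rfl⟩, ?_⟩⟩
  · have h1 : ((n : ℤ) + 1 - -(n : ℤ)).toNat = 2 * n + 1 := by omega
    rw [card_product, Int.card_Icc, h1, sq]
  · have h1 := abs_ediv (a' := 0) hl (by simpa using hx.1)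
    have h2 := abs_ediv (a' := 0) hl (by simpa using hx.2)
    rw [Int.zero_ediv, sub_zero, abs_le] at h1 h2
    exact mem_product.2 ⟨mem_Icc.2 h1, mem_Icc.2 h2⟩
  · have f : ∀ a : ℤ, |a - l * (a / l)| ≤ l := fun a => by
      have h1 := Int.emod_add_mul_ediv a l
      have h3 := Int.emod_nonneg a hl.ne'
      have h5 := Int.emod_lt_of_pos a hl
      rw [abs_le]
      constructor <;> linarith
    exact ⟨by simpa [key, sub_add_eq_sub_sub] using f (x.1 - b.1),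
      by simpa [key, sub_add_eq_sub_sub] using f (x.2 - b.2)⟩

/-- the covering in the plane lattice -/
theorem cover {α : ℝ} (hα : 0 < α) (K : ℕ) : ∃ n₂ : ℕ, ∀ L : ℕ, 6 * K + 4 ≤ L → ∃ κ > 0,
    ∀ (S₁ S₂ : Set (ℤ × ℤ)) (ν₁ ν₂ : ℂ) (l : ℕ), ‖ν₁‖ = 1 → ‖ν₂‖ = 1 → α ≤ ‖ν₁ + ν₂‖ →
    Epi S₁ ν₁ κ → Epi S₂ ν₂ κ → L ≤ l → ∃ Y₁ Y₂ : Finset (ℤ × ℤ), Y₁.card ≤ 234 * L ∧
      Y₂.card ≤ n₂ ∧ (∀ b ∈ Y₁, Bx (4 * L * l) b ∧ Nr (S₁ ∩ S₂) b ∧ ∃ (ν : ℂ) (w₀ : ℝ), ‖ν‖ = 1 ∧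
        0 ≤ w₀ ∧ K * (w₀ + 1) ≤ l ∧ (∀ v, Bx (K * l) v → ht ν v ≤ -w₀ → b + v ∉ S₁ ∩ S₂) ∧
        ∀ v, Bx (K * l) v → w₀ ≤ ht ν v → b + v ∈ S₁ ∩ S₂) ∧
      ∀ x, Bx (4 * L * l) x → Nr (S₁ ∩ S₂) x → ∃ y ∈ Y₁ ∪ Y₂, Bx l (x - y) := by
  classical
  obtain ⟨κ₁, p1, p2⟩ : ∃ κ₁ : ℝ, 0 < κ₁ ∧ κ₁ * (32 * (K + 1) ^ 2) = 1 :=
    ⟨(32 * ((K : ℝ) + 1) ^ 2)⁻¹, by positivity, inv_mul_cancel₀ (by positivity)⟩
  refine ⟨(2 * ⌈4 * (4 * K + 5) / (α * κ₁)⌉₊ + 1) ^ 2, fun L hL => ?_⟩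
  have L1 : (6 * K + 4 : ℝ) ≤ L := by exact_mod_cast hL
  have K0 : (0 : ℝ) ≤ K := Nat.cast_nonneg K
  have L0 : (0 : ℝ) < L := by linarith
  refine ⟨κ₁ / L, by positivity, fun S₁ S₂ ν₁ ν₂ l n1 n2 ha e1 e2 hl => ?_⟩
  have l1 : (L : ℝ) ≤ l := by exact_mod_cast hl
  have l0 : (0 : ℤ) < l := by omega
  have q0 : 0 ≤ κ₁ / L := by positivity
  have q1 : κ₁ / L ≤ κ₁ := div_le_self p1.le (by linarith)
  have q2 : κ₁ / L * (8 * (4 * L : ℕ)) ≤ 1 := by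
    push_cast
    have : κ₁ / L * (8 * (4 * L)) = κ₁ * 32 := by field_simp; ring
    rw [this]
    nlinarith [mul_nonneg p1.le (show (0:ℝ) ≤ K ^ 2 + 2 * K by positivity)]
  generalize κ₁ / L = κ at e1 e2 q0 q1 q2
  let good : ℤ × ℤ → Prop := fun b => Bx (4 * L * l) b ∧ Nr (S₁ ∩ S₂) b ∧
    ∃ ν, ‖ν‖ = 1 ∧ Gd S₁ ν₁ ν κ₁ (K * l) b ∧ Gd S₂ ν₂ ν κ₁ (K * l) b
  let box : Finset (ℤ × ℤ) :=
    Icc (-(4 * L * l : ℤ)) (4 * L * l) ×ˢ Icc (-(4 * L * l : ℤ)) (4 * L * l)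
  have hbox : ∀ b, Bx (4 * L * l) b → b ∈ box := fun b hb =>
    mem_product.2 ⟨mem_Icc.2 (abs_le.1 hb.1), mem_Icc.2 (abs_le.1 hb.2)⟩
  have ex : ∀ k, ∃ b, k ∈ (box.filter good).image (key l) → good b ∧ key l b = k := fun k => by
    by_cases h : k ∈ (box.filter good).image (key l)
    · obtain ⟨b, h1, h2⟩ := mem_image.1 h
      exact ⟨b, fun _ => ⟨(mem_filter.1 h1).2, h2⟩⟩
    · exact ⟨0, fun o => absurd o h⟩
  choose rep hrep using ex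
  have bad : ∃ Y₂ : Finset (ℤ × ℤ), Y₂.card ≤ (2 * ⌈4 * (4 * K + 5) / (α * κ₁)⌉₊ + 1) ^ 2 ∧
      ∀ x, Bx (4 * L * l) x → Nr (S₁ ∩ S₂) x → ¬ good x → ∃ y ∈ Y₂, Bx l (x - y) := by
    have str : ∀ x, Bx (4 * L * l) x → Nr (S₁ ∩ S₂) x → ¬ good x → κ₁ ≤ ‖ν₁ - ν₂‖ ∧
        (∃ v, Bx (K * l + 1) v ∧ x + v ∉ S₁) ∧ ∃ v, Bx (K * l + 1) v ∧ x + v ∉ S₂ := by
      intro x h1 h2 h3
      have k1 : ¬ Gd S₂ ν₂ ν₁ κ₁ (K * l) x := fun o =>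
        h3 ⟨h1, h2, ν₁, n1, Or.inr (by rw [sub_self, norm_zero]; exact p1.le), o⟩
      have k2 : ¬ Gd S₁ ν₁ ν₂ κ₁ (K * l) x := fun o =>
        h3 ⟨h1, h2, ν₂, n2, o, Or.inr (by rw [sub_self, norm_zero]; exact p1.le)⟩
      simp only [Gd, not_or, not_forall, not_le, exists_prop] at k1 k2
      exact ⟨k1.2.le, k2.1, k1.1⟩
    by_cases h : ∃ b, Bx (4 * L * l) b ∧ Nr (S₁ ∩ S₂) b ∧ ¬ good b
    swap
    · exact ⟨∅, Nat.zero_le _, fun x h1 h2 h3 => absurd ⟨x, h1, h2, h3⟩ h⟩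
    obtain ⟨b, b1, b2, b3⟩ := h
    obtain ⟨Y, y1, y2⟩ := grid b ⌈4 * (4 * K + 5) / (α * κ₁)⌉₊ l0
    refine ⟨Y, y1, fun x h1 h2 h3 => y2 x ?_⟩
    have lev : ∀ {S : Set (ℤ × ℤ)} {ν : ℂ}, Epi S ν κ → ‖ν‖ = 1 → S₁ ∩ S₂ ⊆ S → ∀ u u',
        Bx (4 * L * l) u → Bx (4 * L * l) u' → Nr (S₁ ∩ S₂) u →
        (∃ v, Bx (K * l + 1) v ∧ u' + v ∉ S) → ht ν u' - ht ν u ≤ (4 * K + 5) * l := by
      rintro S ν o1 o2 o3 u u' o4 o5 ⟨⟨d, o6, o7⟩, -⟩ ⟨v, o8, o9⟩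
      have o10 := level (l := l) o1 o2 q0 (by
        push_cast at q2 ⊢
        nlinarith [mul_le_mul_of_nonneg_right q2 (show (0 : ℝ) ≤ l by linarith)])
        (show (K * l + 1 : ℤ) ≤ 4 * L * l by nlinarith) o4 o5
        (o6.mono (by nlinarith)) o8 (o3 o7) o9
      rw [ht_sub] at o10
      push_cast at o10
      nlinarith
    obtain ⟨s1, s2, s3⟩ := str x h1 h2 h3
    obtain ⟨-, t2, t3⟩ := str b b1 b2 b3
    have c := cramer (A := (4 * K + 5) * l) (w := x - b) n1 n2 hα p1 ha s1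
      (by
        rw [ht_sub, abs_le]
        constructor <;> linarith [lev e1 n1 Set.inter_subset_left b x b1 h1 b2 s2,
          lev e1 n1 Set.inter_subset_left x b h1 b1 h2 t2])
      (by
        rw [ht_sub, abs_le]
        constructor <;> linarith [lev e2 n2 Set.inter_subset_right b x b1 h1 b2 s3,
          lev e2 n2 Set.inter_subset_right x b h1 b1 h2 t3])
    have c2 : 4 * ((4 * K + 5) * l) / (α * κ₁) ≤ (⌈4 * (4 * K + 5) / (α * κ₁)⌉₊ : ℝ) * l := by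
      rw [← mul_assoc, mul_div_right_comm]
      exact mul_le_mul_of_nonneg_right (Nat.le_ceil _) (by linarith)
    exact ⟨by exact_mod_cast c.1.trans c2, by exact_mod_cast c.2.trans c2⟩
  obtain ⟨Y₂, y1, y2⟩ := bad
  refine ⟨((box.filter good).image (key l)).image rep, Y₂, card_image_le.trans ?_, y1,
    fun b hb => ?_, fun x h1 h2 => ?_⟩
  · have c : ∀ {S : Set (ℤ × ℤ)} {ν : ℂ}, Epi S ν κ → ‖ν‖ = 1 →
        ((box.filter fun b => Bx (4 * L * l) b ∧ Nr S b).image (key l)).card ≤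
          13 * (2 * (4 * L) + 1) := fun o1 o2 =>
      card_layer o1 o2 q0 (l := l) (by omega) (by omega) q2 _ fun k hk => by
        obtain ⟨b, o3, o4⟩ := mem_image.1 hk
        exact ⟨b, by exact_mod_cast (mem_filter.1 o3).2.1, (mem_filter.1 o3).2.2, o4⟩
    refine (card_le_card (t := _ ∪ _) fun k hk => ?_).trans
      ((card_union_le _ _).trans ((add_le_add (c e1 n1) (c e2 n2)).trans (by omega)))
    obtain ⟨b, o1, rfl⟩ := mem_image.1 hk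
    obtain ⟨o2, o3, ⟨⟨d, o4, o5⟩, d', o6, o7⟩, -⟩ := mem_filter.1 o1
    rcases not_and_or.1 o7 with o | o
    · exact mem_union_left _ (mem_image_of_mem _
        (mem_filter.2 ⟨o2, o3, ⟨d, o4, o5.1⟩, d', o6, o⟩))
    · exact mem_union_right _ (mem_image_of_mem _
        (mem_filter.2 ⟨o2, o3, ⟨d, o4, o5.2⟩, d', o6, o⟩))
  · obtain ⟨k, hk, rfl⟩ := mem_image.1 hb
    obtain ⟨⟨o1, o2, ν, o3, o4, o5⟩, -⟩ := hrep k hk
    refine ⟨o1, o2, ν, 2 + 2 * (κ + κ₁) * ((K * l : ℤ) + 1), o3, by positivity, ?_,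
      fun v hv hw => ?_, fun v hv hw => ?_⟩
    · push_cast
      have u1 : (K : ℝ) * (K * l + 1) ≤ (K + 1) ^ 2 * l := by nlinarith
      have u2 : (κ + κ₁) * (K * (K * l + 1)) ≤ 2 * κ₁ * ((K + 1) ^ 2 * l) :=
        mul_le_mul (by linarith) u1 (by positivity) (by positivity)
      have u3 : κ₁ * (32 * (K + 1) ^ 2) * l = l := by rw [p2, one_mul]
      nlinarith
    · obtain ⟨d, o6, o7⟩ := o2.2
      rcases not_and_or.1 o7 with o | o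
      · exact fun h => o4.out e1 q0 o3 o6 o hv hw h.1
      · exact fun h => o5.out e2 q0 o3 o6 o hv hw h.2
    · obtain ⟨d, o6, o7⟩ := o2.1
      exact ⟨o4.inn e1 q0 o3 o6 o7.1 hv hw, o5.inn e2 q0 o3 o6 o7.2 hv hw⟩
  · by_cases h : good x
    · have h3 := mem_image_of_mem (key l) (mem_filter.2 ⟨hbox x h1, h⟩)
      have h4 := (hrep _ h3).2
      exact ⟨_, mem_union_left _ (mem_image_of_mem rep h3),
        abs_of_ediv l0 (congrArg Prod.fst h4).symm, abs_of_ediv l0 (congrArg Prod.snd h4).symm⟩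
    · obtain ⟨y, h3, h4⟩ := y2 x h1 h2 h
      exact ⟨y, mem_union_right _ h3, h4⟩

theorem bx_lft {M : ℕ} {x z : Tor M} {r : ℕ} (h : tdist x z ≤ r) : Bx r (lft (x - z)) :=
  bx_iff.1 (by simpa [zd, G.tdist_def] using h)

theorem tdist_bx {M : ℕ} [NeZero M] (z : Tor M) {u v : ℤ × ℤ} {r : ℕ} (h : Bx r (u - v)) :
    tdist (z + prj M u) (z + prj M v) ≤ r :=
  (G.tdist_add_prj_le' z u v).trans (by simpa [zd] using bx_iff.2 h)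

end B5b

open B5b in
/-- The covering of the boundary by flat points and corners. -/
theorem cover_shape : ∃ C : ℕ, ∀ α > 0, ∀ K : ℕ, ∃ n₂ L₀ : ℕ, ∀ L ≥ L₀, ∃ κ > 0,
    ∀ (M : ℕ) [NeZero M] (I : Finset (Tor M)) (r ℓ : ℕ), Shape I α κ r → 4 * r ≤ M → L ≤ ℓ →
    8 * (L * ℓ) ≤ r → ∀ z, ∃ Z₁ Z₂ : Finset (Tor M), Z₁.card ≤ C * L ∧ Z₂.card ≤ n₂ ∧
      (∀ b ∈ Z₁, NearB I 1 b ∧ ∃ (ν : ℂ) (w₀ : ℝ), ‖ν‖ = 1 ∧ 0 ≤ w₀ ∧ K * (w₀ + 1) ≤ ℓ ∧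
        OutH I b ν (K * ℓ) w₀ ∧ InH I b ν (K * ℓ) w₀) ∧
      ∀ x, tdist x z ≤ 4 * (L * ℓ) → NearB I 1 x → ∃ y ∈ Z₁ ∪ Z₂, tdist x y ≤ ℓ := by
  refine ⟨234, fun α hα K => ?_⟩
  obtain ⟨n₂, h⟩ := cover hα K
  refine ⟨n₂, 6 * K + 4, fun L hL => ?_⟩
  obtain ⟨κ, hκ, h⟩ := h L hL
  refine ⟨κ, hκ, fun M _ I r l hS _ hl hr z => ?_⟩
  obtain ⟨S₁, S₂, ν₁, ν₂, n1, n2, ha, e1, e2, hI⟩ := hS z
  obtain ⟨Y₁, Y₂, y1, y2, y3, y4⟩ := h S₁ S₂ ν₁ ν₂ l n1 n2 ha e1 e2 hl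
  have r1 : (4 * L * l + (K * l + 1) : ℤ) ≤ r := by
    have h1 : (8 * (L * l) : ℤ) ≤ r := by exact_mod_cast hr
    have h2 : (6 * K + 4 : ℤ) ≤ L := by exact_mod_cast hL
    have h3 : (L : ℤ) ≤ l := by exact_mod_cast hl
    nlinarith
  have mem : ∀ b v, Bx (4 * L * l) b → Bx (K * l + 1) v →
      (z + prj M b + prj M v ∈ I ↔ b + v ∈ S₁ ∩ S₂) := fun b v h1 h2 => by
    rw [add_assoc, ← G.prj_add]
    exact hI _ (bx_iff.2 ((h1.add h2).mono r1))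
  have k1 : (1 : ℤ) ≤ K * l + 1 := by
    have : (0 : ℤ) ≤ K * l := by positivity
    omega
  have near : ∀ b d, Bx 1 d → tdist (z + prj M b + prj M d) (z + prj M b) ≤ 1 := fun b d hd => by
    rw [add_assoc, ← G.prj_add]
    exact tdist_bx z (by rwa [add_sub_cancel_left])
  refine ⟨Y₁.image fun v => z + prj M v, Y₂.image fun v => z + prj M v, card_image_le.trans y1,
    card_image_le.trans y2, fun c hc => ?_, fun x h1 h2 => ?_⟩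
  · obtain ⟨b, hb', rfl⟩ := mem_image.1 hc
    obtain ⟨o1, ⟨⟨d, o2, o3⟩, d', o4, o5⟩, ν, w₀, o6, o7, o8, o9, o10⟩ := y3 b hb'
    refine ⟨⟨⟨_, (mem b d o1 (o2.mono k1)).2 o3, near b d o2⟩, _,
      mt (mem b d' o1 (o4.mono k1)).1 o5, near b d' o4⟩, ν, w₀, o6, o7, o8,
      fun v hv hw => ?_, fun v hv hw => ?_⟩
    · have h3 : Bx (K * l) v := by exact_mod_cast bx_iff.1 hv
      exact mt (mem b v o1 (h3.mono (by omega))).1 (o9 v h3 hw)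
    · have h3 : Bx (K * l) v := by exact_mod_cast bx_iff.1 hv
      exact (mem b v o1 (h3.mono (by omega))).2 (o10 v h3 hw)
  · obtain ⟨⟨f, f1, f2⟩, f', f3, f4⟩ := h2
    have o1 : Bx (4 * L * l) (lft (x - z)) := by
      have := bx_lft h1
      push_cast at this
      rwa [mul_assoc]
    have o2 : Bx 1 (lft (f - x)) := bx_lft f2
    have o3 : Bx 1 (lft (f' - x)) := bx_lft f4
    have o4 := mem _ _ o1 (o2.mono k1)
    have o5 := mem _ _ o1 (o3.mono k1)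
    rw [G.add_prj_lft, G.add_prj_lft] at o4 o5
    obtain ⟨y, o6, o7⟩ := y4 _ o1 ⟨⟨_, o2, o4.1 f1⟩, _, o3, mt o5.2 f3⟩
    refine ⟨z + prj M y, ?_, ?_⟩
    · rw [← image_union]
      exact mem_image_of_mem _ o6
    · have o8 := tdist_bx z o7
      rwa [G.add_prj_lft] at o8

end Vale.Agent.P144Z
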